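/-
P043: from a system of tiling equations to one tile.
-/
import Mathlib

namespace Vale.Agent.P043

open Function Finset

variable {G H : Type*} [AddCommGroup G] [AddCommGroup H]

/-- Every element is uniquely a point of `A` plus a point of `F`. -/
def Tiles (A : Set G) (F : Finset G) : Prop :=
  ∀ g, ∃! p : G × G, p.1 ∈ A ∧ p.2 ∈ F ∧ p.1 + p.2 = g

/-- Invariance under all `P`-fold multiples. -/
def PerBy (A : Set G) (P : ℕ) : Prop := ∀ x z, x + P • z ∈ A ↔ x ∈ A

/-- A system of tiling equations which is solvable but has no periodic solution. -/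
def SysBad (G : Type*) [AddCommGroup G] : Prop :=
  ∃ S : Finset (Finset G), S.Nonempty ∧ (∀ F ∈ S, F.Nonempty) ∧
    (∃ A, ∀ F ∈ S, Tiles A F) ∧ ∀ A : Set G, (∀ F ∈ S, Tiles A F) → ∀ P, 0 < P → ¬ PerBy A P

/-- One tile which tiles but has no periodic tiling. -/
def OneBad (G : Type*) [AddCommGroup G] : Prop :=
  ∃ F : Finset G, F.Nonempty ∧ (∃ A, Tiles A F) ∧ ∀ A : Set G, Tiles A F → ∀ P, 0 < P → ¬ PerBy A P

open Classical in
/-- Pull a system back along a surjection with finitely generated kernel. -/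
theorem sysBad_pullback (ψ : H →+ G) (hψ : Surjective ψ) (ks : Finset H)
    (hks : ∀ k ∈ ks, ψ k = 0) (hgen : ∀ x, ψ x = 0 → x ∈ AddSubgroup.closure (ks : Set H))
    (h : SysBad G) : SysBad H := by
  obtain ⟨S, ⟨F0, hF0⟩, hne, ⟨A0, hA0⟩, hno⟩ := h
  choose σ hσ using hψ
  have σinj : Injective σ := fun a b e => by rw [← hσ a, e, hσ]
  obtain ⟨g0, hg0⟩ := hne F0 hF0
  set move : H → Finset H := fun k => insert (σ g0 + k) ((F0.image σ).erase (σ g0))
  refine ⟨S.image (fun F => F.image σ) ∪ ks.image move, ?_, ?_, ?_, ?_⟩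
  · exact ⟨_, mem_union_left _ (mem_image_of_mem _ hF0)⟩
  · intro F hF
    simp only [mem_union, mem_image] at hF
    rcases hF with ⟨F, hF, rfl⟩ | ⟨k, -, rfl⟩
    · exact (hne F hF).image _
    · exact insert_nonempty _ _
  · have basic : ∀ (T : Finset H) (F : Finset G), Tiles A0 F → (∀ y ∈ T, ψ y ∈ F) →
        (∀ g ∈ F, ∃! y, y ∈ T ∧ ψ y = g) → Tiles {x | ψ x ∈ A0} T := by
      intro T F hT hm hu x
      obtain ⟨⟨a, g⟩, ⟨ha, hg, hag⟩, huniq⟩ := hT (ψ x)
      obtain ⟨y, ⟨hy, hyg⟩, hyu⟩ := hu g hg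
      refine ⟨(x - y, y), ⟨?_, hy, sub_add_cancel x y⟩, ?_⟩
      · simp only [Set.mem_setOf_eq, map_sub, hyg]
        rw [← hag, add_sub_cancel_right]; exact ha
      · rintro ⟨a', y'⟩ ⟨ha', hy', rfl⟩
        have := huniq (ψ a', ψ y') ⟨ha', hm y' hy', by simp⟩
        simp only [Prod.mk.injEq] at this
        have e := hyu y' ⟨hy', this.2⟩
        subst e
        simp
    refine ⟨{x | ψ x ∈ A0}, fun T hT => ?_⟩
    simp only [mem_union, mem_image] at hT
    rcases hT with ⟨F, hF, rfl⟩ | ⟨k, hk, rfl⟩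
    · refine basic _ F (hA0 F hF) ?_ ?_
      · intro y hy
        obtain ⟨g, hg, rfl⟩ := mem_image.mp hy
        rwa [hσ]
      · intro g hg
        refine ⟨σ g, ⟨mem_image_of_mem _ hg, hσ g⟩, ?_⟩
        rintro y ⟨hy, e⟩
        obtain ⟨g', -, rfl⟩ := mem_image.mp hy
        rw [hσ] at e; rw [e]
    · refine basic _ F0 (hA0 F0 hF0) ?_ ?_
      · intro y hy
        simp only [move, mem_insert, mem_erase, mem_image] at hy
        rcases hy with rfl | ⟨-, g, hg, rfl⟩
        · simp [hσ, hks k hk, hg0]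
        · rwa [hσ]
      · intro g hg
        by_cases e : g = g0
        · subst e
          refine ⟨σ g + k, ⟨by simp [move], by simp [hσ, hks k hk]⟩, ?_⟩
          rintro y ⟨hy, ey⟩
          simp only [move, mem_insert, mem_erase, mem_image] at hy
          rcases hy with rfl | ⟨hne', g', -, rfl⟩
          · rfl
          · rw [hσ] at ey; subst ey; exact absurd rfl hne'
        · refine ⟨σ g, ⟨?_, hσ g⟩, ?_⟩
          · simp only [move, mem_insert, mem_erase, mem_image]
            exact Or.inr ⟨fun e' => e (σinj e'), g, hg, rfl⟩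
          · rintro y ⟨hy, ey⟩
            simp only [move, mem_insert, mem_erase, mem_image] at hy
            rcases hy with rfl | ⟨-, g', -, rfl⟩
            · simp [hσ, hks k hk] at ey; exact absurd ey.symm e
            · rw [hσ] at ey; rw [ey]
  · intro A hA P hP hper
    have hB : Tiles A (F0.image σ) :=
      hA _ (mem_union_left _ (mem_image_of_mem _ hF0))
    have shift : ∀ k ∈ ks, ∀ a, a ∈ A ↔ a + k ∈ A := by
      intro k hk a
      by_cases hk0 : k = 0
      · simp [hk0]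
      have hM : Tiles A (move k) := hA _ (mem_union_right _ (mem_image_of_mem _ hk))
      have hnot : σ g0 + k ∉ F0.image σ := by
        intro hm
        obtain ⟨g, -, e⟩ := mem_image.mp hm
        have : g = g0 := by
          have := congrArg ψ e
          simpa [hσ, hks k hk] using this
        subst this
        exact hk0 (by simpa using e.symm)
      constructor
      · intro ha
        obtain ⟨⟨a', f'⟩, ⟨ha', hf', e'⟩, -⟩ := hB (a + k + σ g0)
        dsimp only at ha' hf' e'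
        by_cases hf : f' = σ g0
        · subst hf
          rw [add_left_inj] at e'
          rwa [← e']
        · have := (hM (a + k + σ g0)).unique (y₁ := (a', f')) (y₂ := (a, σ g0 + k))
            ⟨ha', mem_insert_of_mem (mem_erase.mpr ⟨hf, hf'⟩), e'⟩
            ⟨ha, mem_insert_self _ _, by abel⟩
          simp only [Prod.mk.injEq] at this
          exact absurd (this.2 ▸ hf') hnot
      · intro ha
        obtain ⟨⟨a', f'⟩, ⟨ha', hf', e'⟩, -⟩ := hM (a + (σ g0 + k))
        dsimp only at ha' hf' e'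
        rcases mem_insert.mp hf' with rfl | hf''
        · rw [add_left_inj] at e'
          rwa [← e']
        · obtain ⟨hne', hmem⟩ := mem_erase.mp hf''
          have := (hB (a + (σ g0 + k))).unique (y₁ := (a', f')) (y₂ := (a + k, σ g0))
            ⟨ha', hmem, e'⟩ ⟨ha, mem_image_of_mem _ hg0, by rw [add_assoc, add_comm k]⟩
          simp only [Prod.mk.injEq] at this
          exact absurd this.2 hne'
    have inv : ∀ z, ψ z = 0 → ∀ a, a ∈ A ↔ a + z ∈ A := by
      intro z hz
      induction hgen z hz using AddSubgroup.closure_induction with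
      | mem k hk => exact shift k (by simpa using hk)
      | zero => simp
      | add x y hx hy ihx ihy =>
        intro a
        have e1 : ψ x = 0 := (AddSubgroup.closure_le (ψ.ker)).mpr (by
          intro k hk; exact hks k (by simpa using hk)) hx
        have e2 : ψ y = 0 := (AddSubgroup.closure_le (ψ.ker)).mpr (by
          intro k hk; exact hks k (by simpa using hk)) hy
        rw [ihx e1 a, ihy e2 (a + x), add_assoc]
      | neg x hx ihx =>
        intro a
        have e1 : ψ x = 0 := (AddSubgroup.closure_le (ψ.ker)).mpr (by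
          intro k hk; exact hks k (by simpa using hk)) hx
        rw [ihx e1 (a + -x), neg_add_cancel_right]
    refine hno (ψ '' A) (fun F hF => ?_) P hP ?_
    · intro g
      obtain ⟨⟨a, y⟩, ⟨ha, hy, hay⟩, -⟩ :=
        hA _ (mem_union_left _ (mem_image_of_mem _ hF)) (σ g)
      dsimp only at ha hy hay
      obtain ⟨f, hf, rfl⟩ := mem_image.mp hy
      refine ⟨(ψ a, f), ⟨⟨a, ha, rfl⟩, hf, ?_⟩, ?_⟩
      · rw [← hσ g, ← hay, map_add, hσ]
      · rintro ⟨b', f'⟩ ⟨⟨a', ha', rfl⟩, hf', e⟩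
        dsimp only at e hf'
        have hz : ψ (σ g - σ f' - a') = 0 := by simp [hσ, ← e]
        have := (inv _ hz a').mp ha'
        rw [add_sub_cancel] at this
        have := (hA _ (mem_union_left _ (mem_image_of_mem _ hF)) (σ g)).unique
          (y₁ := (σ g - σ f', σ f')) (y₂ := (a, σ f))
          ⟨this, mem_image_of_mem _ hf', sub_add_cancel _ _⟩ ⟨ha, mem_image_of_mem _ hf, hay⟩
        simp only [Prod.mk.injEq] at this
        have ef : f' = f := σinj this.2
        subst ef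
        refine Prod.ext ?_ rfl
        show ψ a' = ψ a
        rw [← this.1]; simp [hσ, ← e]
    · intro x z
      constructor
      · rintro ⟨a, ha, e⟩
        refine ⟨a + -(P • σ z), ?_, by simp [e, hσ]⟩
        rw [← hper _ (σ z)]
        simpa using ha
      · rintro ⟨a, ha, rfl⟩
        exact ⟨a + P • σ z, (hper a (σ z)).mpr ha, by simp [hσ]⟩

/-! ### A rigid split of a cell on a line -/

section Line

variable (J : ℕ)

def hole (j : ℕ) : ℤ := ((j % J : ℕ) : ℤ) + 1

/-- The width of a block. -/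
def wid : ℤ := 2 * J + 3

noncomputable def body (j : ℕ) : Finset ℤ :=
  ((Finset.Ico 0 (wid J)).erase (hole J j)) ∪ {wid J + hole J (j + 1)}

variable {J}

lemma hole_pos (j : ℕ) : 1 ≤ hole J j := by unfold hole; omega

lemma hole_le (hJ : 0 < J) (j : ℕ) : hole J j ≤ J := by
  have := Nat.mod_lt j hJ; unfold hole; omega

lemma dvd_congr {a b c : ℤ} (h : a ∣ b) (e : c = b) : a ∣ c := e ▸ h

lemma mem_body {j : ℕ} {d : ℤ} :
    d ∈ body J j ↔ (0 ≤ d ∧ d < wid J ∧ d ≠ hole J j) ∨ d = wid J + hole J (j + 1) := by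
  simp [body]; tauto

lemma line_rigid (hJ : 0 < J) (U : Fin J → Set ℤ)
    (h : ∀ p, ∃! q : Fin J × ℤ, q.2 ∈ U q.1 ∧ p - q.2 ∈ body J q.1) :
    (∀ (j : Fin J), ∀ u ∈ U j, u + wid J ∈ U ⟨(j + 1) % J, Nat.mod_lt _ hJ⟩) ∧
    (∀ (i j : Fin J), ∀ u ∈ U i, ∀ t ∈ U j, 0 ≤ u - t → u - t < wid J → i = j ∧ u = t) := by
  have key : ∀ (i j : Fin J) (u t p : ℤ), u ∈ U i → t ∈ U j → p - u ∈ body J i →
      p - t ∈ body J j → i = j ∧ u = t := by
    intro i j u t p h1 h2 h3 h4
    have := (h p).unique (y₁ := (i, u)) (y₂ := (j, t)) ⟨h1, h3⟩ ⟨h2, h4⟩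
    simpa using this
  have close : ∀ (i j : Fin J), ∀ u ∈ U i, ∀ t ∈ U j, 0 ≤ u - t → u - t < wid J →
      i = j ∧ u = t := by
    intro i j u hu t ht h0 h1
    have a := hole_pos (J := J) i
    have b := hole_le hJ i
    have c := hole_pos (J := J) j
    have d := hole_le hJ j
    by_cases e : u - t = hole J j
    · refine key i j u t (t + wid J - 1) hu ht ?_ ?_ <;>
        rw [mem_body] <;> left <;> unfold wid at * <;> omega
    · refine key i j u t u hu ht ?_ ?_ <;>
        rw [mem_body] <;> left <;> unfold wid at * <;> omega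
  refine ⟨fun j u hu => ?_, close⟩
  obtain ⟨⟨i, t⟩, ⟨ht, hd⟩, -⟩ := h (u + wid J)
  dsimp only at ht hd
  have a := hole_pos (J := J) i
  have b := hole_le hJ i
  have c := hole_pos (J := J) j
  have d := hole_le hJ j
  rcases mem_body.mp hd with ⟨h0, h1, -⟩ | h2
  · by_cases e : t = u + wid J
    · subst e
      by_cases e2 : hole J i = hole J (j.val + 1)
      · have : i = ⟨(j + 1) % J, Nat.mod_lt _ hJ⟩ := by
          apply Fin.ext
          simp [hole, Nat.mod_eq_of_lt i.isLt] at e2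
          exact_mod_cast e2
        exact this ▸ ht
      · have := key j i u (u + wid J) (u + wid J + hole J (j.val + 1)) hu ht
          (mem_body.mpr (Or.inr (by ring))) (mem_body.mpr (Or.inl ⟨by
            have := hole_pos (J := J) (j.val + 1); omega, by
            have := hole_le hJ (j.val + 1); unfold wid; omega, fun e3 => e2 (by omega)⟩))
        unfold wid at this; omega
    · have := close i j t ht u hu (by omega) (by omega)
      omega
  · have c' := hole_pos (J := J) (i.val + 1)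
    have d' := hole_le hJ (i.val + 1)
    have := close j i u hu t ht (by omega) (by unfold wid at *; omega)
    omega

lemma part_unique {i j : Fin J} {d d' : ℤ} (hd : d ∈ body J i) (hd' : d' ∈ body J j)
    (hN : (J : ℤ) * wid J ∣ (i * wid J + d) - (j * wid J + d')) : i = j ∧ d = d' := by
  have hJ : 0 < J := i.pos
  -- reduce each element to a block number and a place inside the block
  have norm : ∀ (i : Fin J) (d : ℤ), d ∈ body J i → ∃ (q : ℕ) (s : ℤ), q < J ∧ 0 ≤ s ∧ s < wid J ∧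
      (J : ℤ) * wid J ∣ (i * wid J + d) - ((q : ℤ) * wid J + s) ∧
      ((q = i.val ∧ s = d ∧ s ≠ hole J q) ∨
        (q = (i.val + 1) % J ∧ s = hole J q ∧ d = wid J + hole J (i.val + 1))) := by
    intro i d hd
    rcases mem_body.mp hd with ⟨h0, h1, h2⟩ | h2
    · exact ⟨i, d, i.isLt, h0, h1, by simp, Or.inl ⟨rfl, rfl, h2⟩⟩
    · have e : hole J ((i.val + 1) % J) = hole J (i.val + 1) := by simp [hole]
      refine ⟨(i + 1) % J, hole J (i + 1), Nat.mod_lt _ hJ,
        by have := hole_pos (J := J) (i.val + 1); omega,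
        by have := hole_le hJ (i.val + 1); unfold wid; omega,
        ⟨((i.val + 1) / J : ℕ), ?_⟩, Or.inr ⟨rfl, e.symm, h2⟩⟩
      have := Nat.mod_add_div (i.val + 1) J
      have : ((i.val + 1) % J : ℕ) + (J : ℤ) * ((i.val + 1) / J : ℕ) = (i.val : ℤ) + 1 := by
        exact_mod_cast this
      rw [h2]
      linear_combination (-wid J) * this
  obtain ⟨q, s, hq, hs0, hs1, hdiv, hc⟩ := norm i d hd
  obtain ⟨q', s', hq', hs0', hs1', hdiv', hc'⟩ := norm j d' hd'
  have hd0 : (J : ℤ) * wid J ∣ ((q : ℤ) * wid J + s) - ((q' : ℤ) * wid J + s') := by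
    exact dvd_congr (dvd_add (dvd_sub hN hdiv) hdiv') (by ring)
  have hw : (0 : ℤ) < wid J := by unfold wid; omega
  have eq : (q : ℤ) * wid J + s = (q' : ℤ) * wid J + s' := by
    have := Int.eq_zero_of_abs_lt_dvd hd0 (by
      rw [abs_lt]
      constructor <;> nlinarith [(by exact_mod_cast hq : (q : ℤ) + 1 ≤ J),
        (by exact_mod_cast hq' : (q' : ℤ) + 1 ≤ J), Int.natCast_nonneg q, Int.natCast_nonneg q'])
    omega
  have eqq : q = q' := by
    rcases lt_trichotomy q q' with hlt | he | hlt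
    · have : (q : ℤ) + 1 ≤ q' := by exact_mod_cast hlt
      nlinarith
    · exact he
    · have : (q' : ℤ) + 1 ≤ q := by exact_mod_cast hlt
      nlinarith
  subst eqq
  have ess : s = s' := by omega
  subst ess
  rcases hc with ⟨a, b, c⟩ | ⟨a, b, c⟩ <;> rcases hc' with ⟨a', b', c'⟩ | ⟨a', b', c'⟩
  · exact ⟨Fin.ext (a.symm.trans a'), b.symm.trans b'⟩
  · exact absurd b' c
  · exact absurd b c'
  · have : i = j := by
      apply Fin.ext
      have ai := i.isLt
      have aj := j.isLt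
      have h3 : (i.val + 1) % J = (j.val + 1) % J := a.symm.trans a'
      have h4 : i.val ≡ j.val [MOD J] := Nat.ModEq.add_right_cancel' 1 h3
      unfold Nat.ModEq at h4
      rwa [Nat.mod_eq_of_lt ai, Nat.mod_eq_of_lt aj] at h4
    subst this
    exact ⟨rfl, c.trans c'.symm⟩

lemma part_exists (hJ : 0 < J) (p : ℤ) :
    ∃ (i : Fin J) (d : ℤ), d ∈ body J i ∧ (J : ℤ) * wid J ∣ p - (i * wid J + d) := by
  set N : ℤ := (J : ℤ) * wid J
  have hw : (0 : ℤ) < wid J := by unfold wid; omega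
  have hN : 0 < N := mul_pos (by exact_mod_cast hJ) hw
  set r := p % N with hr
  have r0 : 0 ≤ r := Int.emod_nonneg _ hN.ne'
  have r1 : r < N := Int.emod_lt_of_pos _ hN
  obtain ⟨q, hq⟩ := Int.eq_ofNat_of_zero_le (Int.ediv_nonneg r0 hw.le : 0 ≤ r / wid J)
  set s := r % wid J with hs
  have s0 : 0 ≤ s := Int.emod_nonneg _ hw.ne'
  have s1 : s < wid J := Int.emod_lt_of_pos _ hw
  have ers : (q : ℤ) * wid J + s = r := by
    rw [hs, ← hq, mul_comm]; exact Int.mul_ediv_add_emod r (wid J)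
  have hqJ : q < J := by
    have : (q : ℤ) * wid J < (J : ℤ) * wid J := by omega
    exact_mod_cast lt_of_mul_lt_mul_right this hw.le
  have hdiv : N ∣ p - r := Int.dvd_self_sub_emod
  by_cases e : s = hole J q
  · set i : ℕ := (q + (J - 1)) % J with hi
    have e1 : (i + 1) % J = q := by
      rw [hi, Nat.mod_add_mod, show q + (J - 1) + 1 = q + J by omega, Nat.add_mod_right,
        Nat.mod_eq_of_lt hqJ]
    refine ⟨⟨i, Nat.mod_lt _ hJ⟩, wid J + hole J (i + 1), mem_body.mpr (Or.inr rfl), ?_⟩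
    have e2 : hole J (i + 1) = s := by
      rw [e]; unfold hole; rw [e1, Nat.mod_eq_of_lt hqJ]
    have := Nat.mod_add_div (i + 1) J
    rw [e1] at this
    have : (q : ℤ) + (J : ℤ) * ((i + 1) / J : ℕ) = (i : ℤ) + 1 := by exact_mod_cast this
    have h2 := dvd_sub hdiv (dvd_mul_right N (((i + 1) / J : ℕ) : ℤ))
    have e3 : p - ((i : ℤ) * wid J + (wid J + hole J (i + 1)))
        = p - r - N * (((i + 1) / J : ℕ) : ℤ) := by
      rw [e2, ← ers]
      simp only [N]
      linear_combination (wid J) * this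
    show N ∣ p - ((i : ℤ) * wid J + (wid J + hole J (i + 1)))
    rw [e3]; exact h2
  · refine ⟨⟨q, hqJ⟩, s, mem_body.mpr (Or.inl ⟨s0, s1, e⟩), ?_⟩
    show N ∣ p - ((q : ℤ) * wid J + s)
    rw [ers]; exact hdiv

theorem line_align (hJ : 0 < J) (U : Fin J → Set ℤ)
    (cover : ∀ p, ∃! q : Fin J × ℤ, q.2 ∈ U q.1 ∧ p - q.2 ∈ body J q.1) :
    ∃ c : ℤ, ∀ (i : Fin J) (u : ℤ),
      u ∈ U i ↔ (J : ℤ) * wid J ∣ u - c - i * wid J := by
  set N : ℤ := (J : ℤ) * wid J with hN
  set L := wid J with hLdef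
  obtain ⟨succ, close⟩ := line_rigid hJ U cover
  have iter : ∀ (k : ℕ) (i : Fin J) (u : ℤ), u ∈ U i →
      u + k * L ∈ U ⟨(i + k) % J, Nat.mod_lt _ hJ⟩ := by
    intro k
    induction k with
    | zero =>
      intro i u hu
      simpa [Nat.mod_eq_of_lt i.isLt] using hu
    | succ k ih =>
      intro i u hu
      have := succ _ _ (ih i u hu)
      convert this using 1
      · congr 1; apply Fin.ext
        simp [Nat.mod_add_mod, add_assoc]
      · push_cast; ring
  obtain ⟨⟨i0, u0⟩, ⟨hu0, -⟩, -⟩ := cover 0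
  dsimp only at hu0
  have align : ∀ (i : Fin J) (u : ℤ), u ∈ U i → N ∣ u - (u0 - i0 * L) - i * L := by
    intro i u hu
    have hL : 0 < L := by simp only [L, wid]; omega
    set z := (u - u0) / L with hz
    set k : ℕ := z.natAbs
    obtain ⟨k', hk'⟩ := Int.eq_ofNat_of_zero_le (show (0 : ℤ) ≤ z + k by omega)
    have a := iter k i u hu
    have b := iter k' i0 u0 hu0
    have e1 := Int.mul_ediv_add_emod (u - u0) L
    have e2 := Int.emod_nonneg (u - u0) hL.ne'
    have e3 := Int.emod_lt_of_pos (u - u0) hL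
    rw [← hz] at e1
    have hdiff : u + k * L - (u0 + k' * L) = (u - u0) % L := by
      rw [← hk']; linear_combination -e1
    obtain ⟨ei, eu⟩ := close _ _ _ a _ b (by omega) (by omega)
    have hmod : ((i.val + k : ℕ) : ℤ) ≡ ((i0.val + k' : ℕ) : ℤ) [ZMOD (J : ℤ)] := by
      exact_mod_cast Int.natCast_modEq_iff.mpr (Fin.ext_iff.mp ei)
    obtain ⟨m, hm⟩ := hmod.dvd
    push_cast at hm
    exact ⟨m, by rw [hN]; linear_combination eu + L * hm⟩
  refine ⟨u0 - i0 * L, fun i u => ⟨align i u, fun hu => ?_⟩⟩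
  obtain ⟨⟨i', t⟩, ⟨ht, hd⟩, -⟩ := cover u
  dsimp only at ht hd
  have h2 := align i' t ht
  have h0 : (0 : ℤ) ∈ body J i.val := mem_body.mpr (Or.inl ⟨le_rfl, by simp [wid]; omega, by
    have := hole_pos (J := J) i.val; omega⟩)
  obtain ⟨ei, ed⟩ := part_unique hd h0 (by
    exact dvd_congr (dvd_sub hu h2) (by ring))
  subst ei
  rwa [show u = t by omega]

end Line

open Classical in
/-- Pack a system on `ℤ × W` into one tile. -/
theorem oneBad_stack {W : Type} [AddCommGroup W] (gens : Finset W)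
    (hgen : AddSubgroup.closure (gens : Set W) = ⊤) (h : SysBad (ℤ × W)) : OneBad (ℤ × W) := by
  obtain ⟨S, ⟨F0, hF0⟩, hne, ⟨A0, hA0⟩, hno⟩ := h
  set S' : Finset (Finset (ℤ × W)) :=
    S ∪ gens.image fun g => F0.image fun f => f + (0, g) with hS'
  have hA0' : ∀ F ∈ S', Tiles A0 F := by
    intro F hF
    simp only [hS', mem_union, mem_image] at hF
    rcases hF with hF | ⟨g, -, rfl⟩
    · exact hA0 F hF
    intro x
    obtain ⟨⟨a, f⟩, ⟨ha, hf, e⟩, hu⟩ := hA0 F0 hF0 (x - (0, g))
    refine ⟨(a, f + (0, g)), ⟨ha, mem_image_of_mem _ hf, by simp at e ⊢; rw [← add_assoc, e]; simp⟩, ?_⟩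
    rintro ⟨a', f'⟩ ⟨ha', hf', e'⟩
    obtain ⟨f'', hf'', rfl⟩ := mem_image.mp hf'
    have := hu (a', f'') ⟨ha', hf'', by simp at e' ⊢; rw [← e']; abel⟩
    simp only [Prod.mk.injEq] at this
    simp [this.1, this.2]
  set J := S'.card with hJdef
  have hJ : 0 < J := card_pos.mpr ⟨F0, mem_union_left _ hF0⟩
  set Fj : Fin J → Finset (ℤ × W) := fun i => ((S'.equivFin).symm i).1 with hFj
  have hFjS : ∀ i, Fj i ∈ S' := fun i => ((S'.equivFin).symm i).2
  have hFex : ∀ F ∈ S', ∃ i, Fj i = F := fun F hF => ⟨S'.equivFin ⟨F, hF⟩, by simp [Fj]⟩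
  set L := wid J
  set N : ℤ := (J : ℤ) * L with hN
  have hNpos : 0 < N := mul_pos (by exact_mod_cast hJ) (by simp only [L, wid]; omega)
  set sc : ℤ × W →+ ℤ × W := (AddMonoidHom.mulLeft N).prodMap (AddMonoidHom.id W) with hsc
  have sc_apply : ∀ x : ℤ × W, sc x = (N * x.1, x.2) := fun x => rfl
  set cell : Fin J → (ℤ × W) → ℤ → ℤ × W :=
    fun i f d => sc f + (i * L + d, 0) with hcell
  have cell_inj : ∀ (i j : Fin J) (f f' : ℤ × W) (d d' : ℤ), d ∈ body J i → d' ∈ body J j →
      cell i f d = cell j f' d' → i = j ∧ f = f' ∧ d = d' := by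
    intro i j f f' d d' hd hd' e
    simp only [cell, sc_apply, Prod.mk_add_mk, add_zero, Prod.mk.injEq] at e
    obtain ⟨rfl, rfl⟩ := part_unique hd hd' ⟨f'.1 - f.1, by linear_combination e.1⟩
    exact ⟨rfl, Prod.ext (mul_left_cancel₀ hNpos.ne' (by linarith [e.1])) e.2, rfl⟩
  set F : Finset (ℤ × W) := univ.biUnion fun i : Fin J =>
    (Fj i ×ˢ body J i).image fun p => cell i p.1 p.2 with hF
  have memF : ∀ y, y ∈ F ↔ ∃ i f d, f ∈ Fj i ∧ d ∈ body J i ∧ cell i f d = y := by
    intro y; simp [F, and_assoc]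
  refine ⟨F, ?_, ⟨sc '' A0, ?_⟩, ?_⟩
  · obtain ⟨i, hi⟩ := hFex F0 (mem_union_left _ hF0)
    obtain ⟨f, hf⟩ := hne F0 hF0
    exact ⟨cell i f 0, (memF _).mpr ⟨i, f, 0, hi ▸ hf,
      mem_body.mpr (Or.inl ⟨le_rfl, by simp [wid]; omega, by
        have := hole_pos (J := J) i.val; omega⟩), rfl⟩⟩
  · rintro ⟨p, w⟩
    obtain ⟨i, d, hd, m, hm⟩ := part_exists hJ p
    obtain ⟨⟨a, f⟩, ⟨ha, hf, e⟩, hu⟩ := hA0' _ (hFjS i) (m, w)
    refine ⟨(sc a, cell i f d), ⟨⟨a, ha, rfl⟩, (memF _).mpr ⟨i, f, d, hf, hd, rfl⟩, ?_⟩, ?_⟩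
    · simp only [cell, sc_apply, Prod.mk_add_mk, add_zero, Prod.ext_iff, Prod.fst_add,
        Prod.snd_add] at e ⊢
      exact ⟨by linear_combination N * e.1 - hm, e.2⟩
    · rintro ⟨b, y⟩ ⟨⟨a', ha', rfl⟩, hy, e'⟩
      obtain ⟨i', f', d', hf', hd', rfl⟩ := (memF y).mp hy
      simp only [cell, sc_apply, Prod.mk_add_mk, add_zero, Prod.ext_iff, Prod.fst_add,
        Prod.snd_add] at e'
      obtain ⟨rfl, rfl⟩ := part_unique hd hd'
        ⟨a'.1 + f'.1 - m, by linear_combination -hm - e'.1⟩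
      have := hu (a', f') ⟨ha', hf', Prod.ext
        (mul_left_cancel₀ hNpos.ne' (show N * (a'.1 + f'.1) = N * m by linear_combination e'.1 + hm)) e'.2⟩
      simp only [Prod.mk.injEq] at this
      rw [this.1, this.2]
  · intro A hA P hP hper
    set X : Fin J → Set (ℤ × W) := fun i => {x | ∃ a ∈ A, ∃ f ∈ Fj i, a + sc f = x} with hX
    set U : W → Fin J → Set ℤ := fun w i => {u | (u - i * L, w) ∈ X i} with hU
    have cover : ∀ w p, ∃! q : Fin J × ℤ, q.2 ∈ U w q.1 ∧ p - q.2 ∈ body J q.1 := by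
      intro w p
      obtain ⟨⟨a, y⟩, ⟨ha, hy, e⟩, hu⟩ := hA (p, w)
      obtain ⟨i, f, d, hf, hd, rfl⟩ := (memF y).mp hy
      simp only [cell] at e
      refine ⟨(i, p - d), ⟨⟨a, ha, f, hf, ?_⟩, by simpa using hd⟩, ?_⟩
      · simp only [Prod.ext_iff, Prod.fst_add, Prod.snd_add] at e ⊢
        simp at e ⊢
        exact ⟨by linarith [e.1], e.2⟩
      · rintro ⟨i', u⟩ ⟨⟨a', ha', f', hf', e'⟩, hd'⟩
        dsimp only at hd' e'
        have := hu (a', cell i' f' (p - u)) ⟨ha', (memF _).mpr ⟨i', f', _, hf', hd', rfl⟩, by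
          simp only [cell]
          rw [← add_assoc, e']
          simp
          ring⟩
        simp only [Prod.mk.injEq] at this
        obtain ⟨rfl, -, e3⟩ := cell_inj _ _ _ _ _ _ hd' hd this.2
        simp only [Prod.mk.injEq, true_and]
        omega
    have base : ∀ w, ∃ c : ℤ, ∀ (i : Fin J) (u : ℤ), u ∈ U w i ↔ N ∣ u - c - i * L :=
      fun w => line_align hJ (U w) (cover w)
    choose c hc using base
    have cres : ∀ (i : Fin J), ∀ a ∈ A, ∀ f ∈ Fj i, N ∣ a.1 - c (a.2 + f.2) := by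
      intro i a ha f hf
      have hm : (a.1 + N * f.1 + i * L) ∈ U (a.2 + f.2) i := ⟨a, ha, f, hf, by
        simp [sc_apply, Prod.ext_iff]⟩
      obtain ⟨m, hm⟩ := (hc _ _ _).mp hm
      exact ⟨m - f.1, by linear_combination hm⟩
    obtain ⟨i0, hi0⟩ := hFex F0 (mem_union_left _ hF0)
    have cstep : ∀ g ∈ gens, ∀ w, N ∣ c (w + g) - c w := by
      intro g hg w
      have hu : c w + i0 * L ∈ U w i0 := (hc w i0 _).mpr (by simp)
      obtain ⟨a, ha, f, hf, e⟩ := hu
      have ew : a.2 + f.2 = w := by simpa [sc_apply] using congrArg Prod.snd e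
      obtain ⟨i, hi⟩ := hFex (F0.image fun f => f + (0, g))
        (mem_union_right _ (mem_image_of_mem _ hg))
      have a1 := cres i0 a ha f hf
      have a2 := cres i a ha (f + (0, g)) (hi ▸ mem_image_of_mem _ (hi0 ▸ hf))
      simp only [Prod.snd_add] at a2
      rw [← add_assoc, ew] at a2
      rw [ew] at a1
      exact dvd_congr (dvd_sub a1 a2) (by ring)
    have cconst : ∀ g w, N ∣ c (w + g) - c w := by
      intro g
      have : g ∈ AddSubgroup.closure (gens : Set W) := hgen ▸ AddSubgroup.mem_top g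
      induction this using AddSubgroup.closure_induction with
      | mem g hg => exact cstep g (by simpa using hg)
      | zero => simp
      | add x y _ _ ihx ihy =>
        intro w
        refine dvd_congr (dvd_add (ihy (w + x)) (ihx w)) ?_
        rw [add_assoc]; ring
      | neg x _ ihx =>
        intro w
        have := ihx (w + -x)
        rw [neg_add_cancel_right] at this
        rwa [dvd_sub_comm] at this
    set c0 := c 0
    have aligned : ∀ a ∈ A, N ∣ a.1 - c0 := by
      intro a ha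
      obtain ⟨f, hf⟩ := hne F0 hF0
      have a1 := cres i0 a ha f (hi0 ▸ hf)
      have a2 := cconst (a.2 + f.2) 0
      rw [zero_add] at a2
      exact dvd_congr (dvd_add a1 a2) (by ring)
    refine hno {x | sc x + (c0, 0) ∈ A} (fun F' hF' => ?_) P hP ?_
    · obtain ⟨i, rfl⟩ := hFex F' (mem_union_left _ hF')
      rintro ⟨m, w⟩
      have a2 := cconst w 0
      rw [zero_add] at a2
      have hu : N * m + c0 + i * L ∈ U w i := (hc w i _).mpr (by
        obtain ⟨k, hk⟩ := a2
        exact ⟨m - k, by linear_combination -hk⟩)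
      obtain ⟨a, ha, f, hf, e⟩ := hu
      obtain ⟨k, hk⟩ := aligned a ha
      have ea : sc (k, a.2) + (c0, 0) = a := by
        simp [sc_apply, Prod.ext_iff]; linarith
      have e1 : a.1 + N * f.1 = N * m + c0 := by
        simpa [sc_apply] using congrArg Prod.fst e
      have e2 : a.2 + f.2 = w := by simpa [sc_apply] using congrArg Prod.snd e
      refine ⟨((k, a.2), f), ⟨by show _ ∈ A; rwa [ea], hf, Prod.ext
        (mul_left_cancel₀ hNpos.ne' (show N * (k + f.1) = N * m by linear_combination e1 - hk)) e2⟩, ?_⟩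
      rintro ⟨x, f'⟩ ⟨hx, hf', exy⟩
      dsimp only at hx hf' exy
      simp only [Prod.ext_iff, Prod.fst_add, Prod.snd_add] at exy
      set p : ℤ × W := (N * m + c0 + i * L, w)
      have h0 : (0 : ℤ) ∈ body J i.val := mem_body.mpr (Or.inl ⟨le_rfl, by simp [wid]; omega, by
        have := hole_pos (J := J) i.val; omega⟩)
      have := (hA p).unique (y₁ := (sc x + (c0, 0), cell i f' 0)) (y₂ := (a, cell i f 0))
        ⟨hx, (memF _).mpr ⟨i, f', 0, hf', h0, rfl⟩, by
          simp [cell, sc_apply, p, Prod.ext_iff]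
          exact ⟨by linear_combination N * exy.1, exy.2⟩⟩
        ⟨ha, (memF _).mpr ⟨i, f, 0, hf, h0, rfl⟩, by
          simp [cell, sc_apply, p, Prod.ext_iff]
          exact ⟨by linear_combination e1, e2⟩⟩
      simp only [Prod.mk.injEq] at this
      obtain ⟨-, rfl, -⟩ := cell_inj _ _ _ _ _ _ h0 h0 this.2
      refine Prod.ext (Prod.ext ?_ ?_) rfl
      · exact mul_left_cancel₀ hNpos.ne' (by
          have := congrArg Prod.fst this.1
          simp [sc_apply] at this
          linarith)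
      · have := congrArg Prod.snd this.1
        simpa [sc_apply] using this
    · intro x z
      show sc (x + P • z) + (c0, 0) ∈ A ↔ sc x + (c0, 0) ∈ A
      rw [map_add, map_nsmul, add_right_comm]
      exact hper _ _

theorem tiles_equiv (e : G ≃+ H) (A : Set G) (F : Finset G) (T : Finset H)
    (hT : ∀ y, y ∈ T ↔ e.symm y ∈ F) (hA : Tiles A F) : Tiles {y | e.symm y ∈ A} T := by
  intro y
  obtain ⟨⟨a, f⟩, ⟨ha, hf, hs⟩, hu⟩ := hA (e.symm y)
  dsimp only at ha hf hs
  refine ⟨(e a, e f), ⟨by simpa using ha, (hT _).mpr (by simpa using hf), ?_⟩, ?_⟩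
  · show e a + e f = y
    rw [← map_add, hs, e.apply_symm_apply]
  · rintro ⟨a', f'⟩ ⟨ha', hf', rfl⟩
    have h := hu (e.symm a', e.symm f') ⟨ha', (hT _).mp hf', by simp⟩
    simp only [Prod.mk.injEq] at h
    rw [← h.1, ← h.2, e.apply_symm_apply, e.apply_symm_apply]

theorem oneBad_equiv (e : G ≃+ H) (h : OneBad G) : OneBad H := by
  classical
  obtain ⟨F, hF, ⟨A, hA⟩, hno⟩ := h
  refine ⟨F.image e, hF.image _, ⟨_, tiles_equiv e A F _ (fun y => ?_) hA⟩, ?_⟩
  · simp only [mem_image]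
    exact ⟨by rintro ⟨x, hx, rfl⟩; simpa using hx, fun h => ⟨_, h, e.apply_symm_apply y⟩⟩
  · intro B hB P hP hper
    refine hno {x | e x ∈ B} ?_ P hP ?_
    · have := tiles_equiv e.symm B (F.image e) F (fun x => by simp) hB
      simpa using this
    · intro x z
      simpa using hper (e x) (e z)

theorem oneBad_prod (h : OneBad G) : OneBad (G × H) := by
  classical
  obtain ⟨F, hF, ⟨A, hA⟩, hno⟩ := h
  refine ⟨F.image fun x => (x, (0 : H)), hF.image _, ⟨{p | p.1 ∈ A}, ?_⟩, ?_⟩
  · rintro ⟨g, y⟩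
    obtain ⟨⟨a, f⟩, ⟨ha, hf, hs⟩, hu⟩ := hA g
    refine ⟨((a, y), (f, 0)), ⟨ha, mem_image_of_mem _ hf, by simp at hs; simp [hs]⟩, ?_⟩
    rintro ⟨⟨a', y'⟩, p⟩ ⟨ha', hp, e⟩
    obtain ⟨f', hf', rfl⟩ := mem_image.mp hp
    simp only [Prod.mk_add_mk, add_zero, Prod.mk.injEq] at e
    have := hu (a', f') ⟨ha', hf', e.1⟩
    simp only [Prod.mk.injEq] at this
    simp [this.1, this.2, e.2]
  · intro B hB P hP hper
    refine hno {x | (x, (0 : H)) ∈ B} ?_ P hP ?_
    · intro g
      obtain ⟨⟨⟨a, y⟩, p⟩, ⟨ha, hp, e⟩, hu⟩ := hB (g, 0)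
      obtain ⟨f, hf, rfl⟩ := mem_image.mp hp
      simp only [Prod.mk_add_mk, add_zero, Prod.mk.injEq] at e
      obtain ⟨e1, rfl⟩ := e
      refine ⟨(a, f), ⟨ha, hf, e1⟩, ?_⟩
      rintro ⟨a', f'⟩ ⟨ha', hf', e'⟩
      have := hu ((a', 0), (f', 0)) ⟨ha', mem_image_of_mem _ hf', by simpa using e'⟩
      simp only [Prod.mk.injEq] at this
      simp [this.1.1, this.2.1]
    · intro x z
      simpa using hper (x, 0) (z, 0)

end Vale.Agent.P043
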