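/-
P043: tiling equations for graphs as all-different lists, and two gadgets.
-/
import Mathlib

namespace Vale.Agent.P043

open Function

/-- A list of `|C|` cells with colour offsets. -/
structure Eqn (D C : Type*) where
  δ : C → D
  e : C → C

variable {D C K K' : Type*} [AddCommGroup D] [AddCommGroup C] [AddCommGroup K] [AddCommGroup K']

/-- The values read by the list are pairwise different and cover all colours. -/
def Holds (L : Eqn D C) (f : D → C) : Prop :=
  ∀ y, Bijective fun j => f (y + L.δ j) + L.e j

def trivEqn : Eqn D C := ⟨fun _ => 0, id⟩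

lemma holds_triv (f : D → C) : Holds (trivEqn : Eqn D C) f := fun y => by
  simpa [trivEqn] using (Equiv.addLeft (f y)).bijective

open Classical in
/-- Forces `π (f (y + v)) = π (f y) + κ`. -/
noncomputable def twist (p : C →+ K) (i : K →+ C) (v : D) (k : K) : Eqn D C :=
  ⟨fun j => if p j = 0 then v else 0, fun j => if p j = 0 then j - i k else j⟩

lemma twist_holds_iff [Finite C] (p : C →+ K) (i : K →+ C) (hpi : ∀ x, p (i x) = x)
    (v : D) (k : K) (f : D → C) :
    Holds (twist p i v k) f ↔ ∀ y, p (f (y + v)) = p (f y) + k := by
  constructor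
  · intro h y
    by_contra hne
    set j : C := f (y + v) - i k - f y with hj
    have hpj : p j ≠ 0 := by
      intro e; apply hne
      rw [hj, map_sub, map_sub, hpi] at e
      rw [← sub_eq_zero, ← e]; abel
    have e : (fun j => f (y + (twist p i v k).δ j) + (twist p i v k).e j) j
        = (fun j => f (y + (twist p i v k).δ j) + (twist p i v k).e j) 0 := by
      simp only [twist, if_neg hpj, map_zero, if_true, add_zero]
      rw [hj]; abel
    exact hpj (by rw [(h y).injective e, map_zero])
  · intro h y
    classical
    refine Finite.injective_iff_bijective.mp fun j j' e => ?_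
    have key : ∀ j : C, p (f (y + (twist p i v k).δ j) + (twist p i v k).e j) = p (f y) + p j := by
      intro j
      simp only [twist]
      split_ifs with h0
      · rw [map_add, map_sub, hpi, h, h0]; abel
      · rw [map_add, add_zero]
    have hp : p j = p j' := add_left_cancel ((key j).symm.trans ((congrArg p e).trans (key j')))
    by_cases h0 : p j' = 0
    · have h1 : p j = 0 := hp.trans h0
      simp only [twist, h0, h1, if_true] at e
      exact sub_left_inj.mp (add_left_cancel e)
    · have h1 : ¬ p j = 0 := fun h1 => h0 (hp.symm.trans h1)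
      simp only [twist, if_neg h0, if_neg h1] at e
      exact add_left_cancel e

open Classical in
/-- Forces: `p₁ ∘ f` is fixed by `u` at `y`, or `p₂ ∘ f` moves by `k` along `v` at `y`. -/
noncomputable def cond (p1 : C →+ K) (p2 : C →+ K') (i2 : K' →+ C) (u v : D) (k : K') :
    Eqn D C :=
  ⟨fun j => (if p1 j = 0 then v else 0) + (if p2 j = 0 then u else 0),
    fun j => if p1 j = 0 then j - i2 k else j⟩

lemma cond_holds_iff [Finite C] (p1 : C →+ K) (p2 : C →+ K') (i2 : K' →+ C)
    (h2 : ∀ x, p2 (i2 x) = x) (h12 : ∀ x, p1 (i2 x) = 0) (u v : D) (k : K') (f : D → C)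
    (hv : ∀ y, p1 (f (y + v)) = p1 (f y)) (hu : ∀ y, p2 (f (y + u)) = p2 (f y)) :
    Holds (cond p1 p2 i2 u v k) f ↔
      ∀ y, p1 (f (y + u)) = p1 (f y) ∨ p2 (f (y + v)) = p2 (f y) + k := by
  constructor
  · intro h y
    by_contra hne
    push Not at hne
    set j : C := f (y + v + u) - i2 k - f y with hj
    have hp1 : p1 j ≠ 0 := by
      intro e; apply hne.1
      rw [hj, map_sub, map_sub, h12, add_right_comm, hv, sub_zero] at e
      exact sub_eq_zero.mp e
    have hp2 : p2 j ≠ 0 := by
      intro e; apply hne.2
      rw [hj, map_sub, map_sub, h2, hu] at e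
      rw [← sub_eq_zero, ← e]; abel
    have e : (fun j => f (y + (cond p1 p2 i2 u v k).δ j) + (cond p1 p2 i2 u v k).e j) j
        = (fun j => f (y + (cond p1 p2 i2 u v k).δ j) + (cond p1 p2 i2 u v k).e j) 0 := by
      simp only [cond, if_neg hp1, if_neg hp2, map_zero, if_true, add_zero]
      rw [hj, ← add_assoc]; abel
    exact hp1 (by rw [(h y).injective e, map_zero])
  · intro h y
    classical
    refine Finite.injective_iff_bijective.mp fun j j' e => ?_
    have k1 : ∀ j : C, p1 (f (y + (cond p1 p2 i2 u v k).δ j) + (cond p1 p2 i2 u v k).e j)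
        = (if p2 j = 0 then p1 (f (y + u)) else p1 (f y)) + p1 j := by
      intro j
      simp only [cond]
      split_ifs with a b b
      · rw [map_add, map_sub, h12, ← add_assoc, add_right_comm y, hv, sub_zero]
      · rw [map_add, map_sub, h12, add_zero, hv, sub_zero]
      · rw [map_add, zero_add]
      · rw [map_add, add_zero, add_zero]
    have k2 : ∀ j : C, p2 (f (y + (cond p1 p2 i2 u v k).δ j) + (cond p1 p2 i2 u v k).e j)
        = (if p1 j = 0 then p2 (f (y + v)) - k else p2 (f y)) + p2 j := by
      intro j
      simp only [cond]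
      split_ifs with a b b
      · rw [map_add, map_sub, h2, ← add_assoc, hu]; abel
      · rw [map_add, map_sub, h2, add_zero]; abel
      · rw [map_add, zero_add, hu]
      · rw [map_add, add_zero, add_zero]
    have a1 := (k1 j).symm.trans ((congrArg p1 e).trans (k1 j'))
    have a2 := (k2 j).symm.trans ((congrArg p2 e).trans (k2 j'))
    have hboth : p1 j = p1 j' ∧ p2 j = p2 j' := by
      rcases h y with hh | hh
      · simp only [hh, ite_self] at a1
        have e1 := add_left_cancel a1
        rw [e1] at a2
        exact ⟨e1, add_left_cancel a2⟩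
      · simp only [hh, add_sub_cancel_right, ite_self] at a2
        have e2 := add_left_cancel a2
        rw [e2] at a1
        exact ⟨add_left_cancel a1, e2⟩
    have eδ : (cond p1 p2 i2 u v k).δ j = (cond p1 p2 i2 u v k).δ j' := by
      simp only [cond, hboth.1, hboth.2]
    rw [eδ] at e
    have := add_left_cancel e
    by_cases h0 : p1 j' = 0
    · simp only [cond, h0, hboth.1.trans h0, if_true] at this
      exact sub_left_inj.mp this
    · have h1 : ¬ p1 j = 0 := fun h1 => h0 (hboth.1.symm.trans h1)
      simp only [cond, if_neg h0, if_neg h1] at this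
      exact this

end Vale.Agent.P043
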