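/-
P043: the list forcing that one of several options varies along its own axis.
-/
import Vale.Agent.P043.Gadget

namespace Vale.Agent.P043

open Function Finset

variable {O : Type} [Fintype O] [DecidableEq O] (P : O → ℕ)

abbrev Row := ∀ o, ZMod (P o)
abbrev Col := Row P × (ZMod 2 × ZMod 2)
abbrev Dom := (ℤ × ℤ) × Row P

/-- The colour component owned by option `o`. -/
def prO (o : O) : Col P →+ ZMod (P o) :=
  (Pi.evalAddMonoidHom (fun o => ZMod (P o)) o).comp (AddMonoidHom.fst _ _)

def inO (o : O) : ZMod (P o) →+ Col P :=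
  (AddMonoidHom.inl _ _).comp (AddMonoidHom.single (fun o => ZMod (P o)) o)

lemma prO_inO (o : O) (x : ZMod (P o)) : prO P o (inO P o x) = x := by simp [prO, inO]

lemma prO_inO_ne {o t : O} (h : o ≠ t) (x : ZMod (P t)) : prO P o (inO P t x) = 0 := by
  simp [prO, inO, h]

def par (G : Finset O) (ε : Row P) : ZMod 2 := ∑ o ∈ G, if ε o = 1 then 1 else 0

def IsOdd (G : Finset O) (ε : Row P) : Prop := (∀ o ∈ G, ε o = 0 ∨ ε o = 1) ∧ par P G ε = 1

def flipAt (o : O) (ε : Row P) : Row P := update ε o (1 - ε o)

lemma flipAt_flipAt (o : O) (ε : Row P) : flipAt P o (flipAt P o ε) = ε := by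
  simp [flipAt]

lemma flipAt_ne {o t : O} (h : t ≠ o) (ε : Row P) : flipAt P o ε t = ε t := by
  simp [flipAt, h]

lemma flipAt_cube {o : O} (hP : ∀ o, 3 ≤ P o) {G : Finset O} (ho : o ∈ G) {ε : Row P}
    (h : ∀ o ∈ G, ε o = 0 ∨ ε o = 1) :
    (∀ t ∈ G, flipAt P o ε t = 0 ∨ flipAt P o ε t = 1) ∧
      par P G (flipAt P o ε) = par P G ε + 1 := by
  refine ⟨fun t ht => ?_, ?_⟩
  · by_cases e : t = o
    · subst e
      rcases h t ht with e | e <;> simp [flipAt, e]
    · rw [flipAt_ne P e]; exact h t ht
  · have : Fact (1 < P o) := ⟨by have := hP o; omega⟩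
    unfold par
    have : ∀ t ∈ G, (if flipAt P o ε t = 1 then (1 : ZMod 2) else 0)
        = (if ε t = 1 then 1 else 0) + (if t = o then 1 else 0) := by
      intro t ht
      by_cases e : t = o
      · subst e
        rcases h t ht with e | e <;> simp [flipAt, e]
        decide
      · simp [flipAt_ne P e, e]
    rw [sum_congr rfl this, sum_add_distrib, sum_ite_eq' G o fun _ => (1 : ZMod 2), if_pos ho]

open Classical in
noncomputable def colMap (G : Finset O) (o0 : O) (ε : Row P) : Row P :=
  if IsOdd P G ε then flipAt P o0 ε else ε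

open Classical in
noncomputable def goalMap (G : Finset O) (o0 o : O) (ε : Row P) : Row P :=
  if IsOdd P G ε then flipAt P o (flipAt P o0 ε) else ε

/-- The list forcing that some option in `G` varies along its own axis. -/
noncomputable def orEqn (G : Finset O) (o0 : O) : Eqn (Dom P) (Col P) :=
  ⟨fun j => (0, fun o => if o ∈ G then goalMap P G o0 o j.1 o - colMap P G o0 j.1 o else 0),
    fun j => (colMap P G o0 j.1, j.2)⟩

/-- Each option component sees only its own axis, and the two extra ones see none. -/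
structure RowDep (f : Dom P → Col P) : Prop where
  opt : ∀ o x r r', r o = r' o → prO P o (f (x, r)) = prO P o (f (x, r'))
  extra : ∀ x r r', (f (x, r)).2 = (f (x, r')).2

lemma goalMap_injective (hP : ∀ o, 3 ≤ P o) {G : Finset O} {o0 o : O} (h0 : o0 ∈ G)
    (ho : o ∈ G) : Injective (goalMap P G o0 o) := by
  have key : ∀ ε, IsOdd P G ε → IsOdd P G (flipAt P o (flipAt P o0 ε)) := by
    intro ε hε
    obtain ⟨a1, a2⟩ := flipAt_cube P hP h0 hε.1
    obtain ⟨b1, b2⟩ := flipAt_cube P hP ho a1
    refine ⟨b1, ?_⟩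
    rw [b2, a2, hε.2]
    decide
  intro ε ε' e
  unfold goalMap at e
  split_ifs at e with h h' h'
  · have := congrArg (fun z => flipAt P o0 (flipAt P o z)) e
    simpa [flipAt_flipAt] using this
  · exact absurd (e ▸ key ε h) h'
  · exact absurd (e ▸ key ε' h' : IsOdd P G ε) h
  · exact e

lemma or_forces (hP : ∀ o, 3 ≤ P o) {G : Finset O} {o0 : O} (h0 : o0 ∈ G)
    {f : Dom P → Col P} (hf : RowDep P f) (h : Holds (orEqn P G o0) f) (x : ℤ × ℤ) :
    ∃ o ∈ G, ∃ r r', prO P o (f (x, r)) ≠ prO P o (f (x, r')) := by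
  by_contra hne
  push Not at hne
  have : Fact (1 < P o0) := ⟨by have := hP o0; omega⟩
  have same : ∀ j : Col P, f ((x, 0) + (orEqn P G o0).δ j) = f (x, 0) := by
    intro j
    set r' : Row P := ((orEqn P G o0).δ j).2 with hr'
    have e : ((x, 0) + (orEqn P G o0).δ j : Dom P) = (x, r') := by
      refine Prod.ext ?_ ?_
      · show x + 0 = x
        exact add_zero x
      · show 0 + _ = r'
        exact zero_add _
    rw [e]
    refine Prod.ext ?_ ?_
    · funext o
      by_cases ho : o ∈ G
      · exact hne o ho r' 0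
      · exact hf.opt o x r' 0 (by simp [hr', orEqn, ho])
    · exact hf.extra x r' 0
  set ε : Row P := Pi.single o0 1 with hε
  have hodd : IsOdd P G ε := by
    refine ⟨fun o _ => ?_, ?_⟩
    · by_cases e : o = o0
      · subst e; simp [hε]
      · simp [hε, e]
    · unfold par
      rw [sum_eq_single o0]
      · simp [hε]
      · intro o _ hne'
        have : Fact (1 < P o) := ⟨by have := hP o; omega⟩
        simp [hε, hne']
      · exact fun h => absurd h0 h
  have hz : ¬ IsOdd P G (0 : Row P) := by
    rintro ⟨-, hp⟩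
    have : par P G (0 : Row P) = 0 := by
      unfold par
      refine sum_eq_zero fun o _ => ?_
      have : Fact (1 < P o) := ⟨by have := hP o; omega⟩
      simp
    rw [this] at hp
    exact absurd hp (by decide)
  have e1 : colMap P G o0 ε = 0 := by
    rw [colMap, if_pos hodd]
    funext o
    by_cases e : o = o0
    · subst e; simp [flipAt, hε]
    · simp [flipAt, hε, e]
  have e0 : colMap P G o0 (0 : Row P) = 0 := by rw [colMap, if_neg hz]
  have := (h (x, 0)).injective (a₁ := (ε, (0, 0))) (a₂ := (0, (0, 0))) (by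
    simp only [same]
    simp [orEqn, e1, e0])
  have := congrFun (congrArg Prod.fst this) o0
  simp [hε] at this

lemma or_holds [∀ o, NeZero (P o)] (hP : ∀ o, 3 ≤ P o) {G : Finset O} {o0 : O} (h0 : o0 ∈ G)
    {f : Dom P → Col P} (hf : RowDep P f)
    (h : ∀ x, ∃ s ∈ G, (∀ r, prO P s (f (x, r)) = r s) ∧
      ∀ o ∈ G, o ≠ s → ∀ r r', prO P o (f (x, r)) = prO P o (f (x, r'))) :
    Holds (orEqn P G o0) f := by
  intro y
  obtain ⟨x, r⟩ := y
  obtain ⟨s, hs, hslope, hconst⟩ := h x
  refine Finite.injective_iff_bijective.mp ?_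
  have key : ∀ j : Col P, f ((x, r) + (orEqn P G o0).δ j) + (orEqn P G o0).e j
      = f (x, r) + (goalMap P G o0 s j.1, j.2) := by
    intro j
    set r' : Row P := r + ((orEqn P G o0).δ j).2 with hr'
    have e : ((x, r) + (orEqn P G o0).δ j : Dom P) = (x, r') := by
      refine Prod.ext ?_ ?_
      · show x + 0 = x
        exact add_zero x
      · rfl
    rw [e]
    refine Prod.ext ?_ ?_
    · funext o
      show prO P o (f (x, r')) + colMap P G o0 j.1 o = prO P o (f (x, r)) + goalMap P G o0 s j.1 o
      by_cases e' : o = s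
      · subst e'
        rw [hslope, hslope, hr']
        simp [orEqn, hs]
        ring
      · have hc : colMap P G o0 j.1 o = goalMap P G o0 s j.1 o := by
          unfold colMap goalMap
          split_ifs
          · rw [flipAt_ne P e']
          · rfl
        rw [hc]
        congr 1
        by_cases ho : o ∈ G
        · exact hconst o ho e' r' r
        · exact hf.opt o x r' r (by simp [hr', orEqn, ho])
    · show (f (x, r')).2 + j.2 = (f (x, r)).2 + j.2
      rw [hf.extra x r' r]
  intro j j' e
  simp only [key] at e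
  have := add_left_cancel e
  simp only [Prod.mk.injEq] at this
  exact Prod.ext (goalMap_injective P hP h0 hs this.1) this.2

end Vale.Agent.P043
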