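/-
P043: the base-64 last-digit Sudoku has no periodic solution.
-/
import Mathlib

namespace Vale.Agent.P043

open Finset

abbrev R64 := ZMod 64

/-- The number of solutions of `b * x = 0`. -/
def ann (b : R64) : ℕ := (univ.filter fun x : R64 => b * x = 0).card

lemma ann_le (b : R64) (hb : b ≠ 0) : ann b ≤ 32 := by
  revert hb; revert b; decide +kernel

lemma ann_eight (b : R64) (h : 8 < ann b) : 4 * b = 0 := by
  revert h; revert b; decide +kernel

lemma ann_thirty (b : R64) (h : 30 ≤ ann b) : b = 0 ∨ b = 32 := by
  revert h; revert b; decide +kernel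

lemma ann_shift (b : R64) (h : ann b ≤ 2) : ann (b + 32) ≤ 2 := by
  revert h; revert b; decide +kernel

lemma card_small_vals : (univ.filter fun y : R64 => y ≠ 0 ∧ 4 * y = 0).card = 3 := by
  decide +kernel

lemma unit_of_parity (l : R64) (h : ZMod.castHom (show 2 ∣ 64 by norm_num) (ZMod 2) l = 1) :
    ∃ m : R64, m * l = 1 := by
  revert h; revert l; decide +kernel

/-- The zero set of `x ↦ a + b * x`. -/
def zset (a b : R64) : Finset R64 := univ.filter fun x => a + b * x = 0

lemma zset_card_le (a b : R64) : (zset a b).card ≤ ann b := by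
  rcases (zset a b).eq_empty_or_nonempty with h | ⟨x0, hx0⟩
  · simp [h]
  · refine card_le_card_of_injOn (fun x => x - x0) ?_ ?_
    · intro x hx
      simp [zset] at hx hx0 ⊢
      linear_combination hx - hx0
    · intro x _ y _ h
      exact sub_left_inj.mp h

lemma zset_card_prim (a b : R64) (h : ¬ (a = 0 ∧ b = 0)) : (zset a b).card ≤ 32 := by
  by_cases hb : b = 0
  · have ha : a ≠ 0 := fun ha => h ⟨ha, hb⟩
    have : zset a b = ∅ := by
      ext x; simp [zset, hb, ha]
    simp [this]
  · exact (zset_card_le a b).trans (ann_le b hb)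

lemma zset_big (a b : R64) (h : 32 < (zset a b).card) : a = 0 ∧ b = 0 := by
  by_contra hc
  have := zset_card_prim a b hc
  omega

/-- Agreement of two affine forms where both are nonzero forces equality. -/
lemma ident (a b a' b' : R64) (hp : ¬ (a = 0 ∧ b = 0)) (hb' : ann b' ≤ 2)
    (h : ∀ x, a + b * x ≠ 0 → a' + b' * x ≠ 0 → a + b * x = a' + b' * x) :
    a = a' ∧ b = b' := by
  classical
  have hsub : univ ⊆ zset a b ∪ zset a' b' ∪ zset (a - a') (b - b') := by
    intro x _
    simp only [zset, mem_union, mem_filter, mem_univ, true_and]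
    by_cases h1 : a + b * x = 0
    · exact Or.inl (Or.inl h1)
    by_cases h2 : a' + b' * x = 0
    · exact Or.inl (Or.inr h2)
    exact Or.inr (by linear_combination h x h1 h2)
  have hc := card_le_card hsub
  have e1 := card_union_le (zset a b ∪ zset a' b') (zset (a - a') (b - b'))
  have e2 := card_union_le (zset a b) (zset a' b')
  have z1 := zset_card_prim a b hp
  have z2 := (zset_card_le a' b').trans hb'
  have hu : (univ : Finset R64).card = 64 := by simp
  have z3 : 30 ≤ (zset (a - a') (b - b')).card := by omega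
  have h30 : 30 ≤ ann (b - b') := z3.trans (zset_card_le _ _)
  rcases ann_thirty _ h30 with hd | hd
  · obtain ⟨x, hx⟩ := card_pos.mp (by omega : 0 < (zset (a - a') (b - b')).card)
    simp only [zset, mem_filter, mem_univ, true_and, hd, zero_mul, add_zero] at hx
    exact ⟨sub_eq_zero.mp hx, sub_eq_zero.mp hd⟩
  · have hb2 : ann b ≤ 2 := by
      have : b = b' + 32 := by linear_combination hd
      rw [this]; exact ann_shift _ hb'
    have z1' := (zset_card_le a b).trans hb2
    have := zset_big (a - a') (b - b') (by omega)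
    exact ⟨sub_eq_zero.mp this.1, sub_eq_zero.mp this.2⟩

/-- If every shift of `c` agrees with some affine form off the two zero sets then `c` is affine. -/
lemma affine_of_shifts (c : R64 → R64)
    (h : ∀ s, ∃ a b : R64, ¬ (a = 0 ∧ b = 0) ∧
      ∀ x, a + b * x ≠ 0 → c x + s ≠ 0 → c x + s = a + b * x) :
    ∃ α β : R64, ∀ x, c x = α + β * x := by
  classical
  choose a b hp hag using h
  have hu : (univ : Finset R64).card = 64 := by simp
  set B1 : Finset R64 := univ.filter fun s => 3 ≤ (univ.filter fun x => c x + s = 0).card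
  set B2 : Finset R64 := univ.filter fun s =>
    (univ.filter fun x => c x + s = 0).card ≤ 2 ∧ 8 < (zset (a s) (b s)).card
  have hB1 : B1.card * 3 ≤ 64 := by
    have h1 : ∀ s ∈ B1, 3 ≤ (univ.filter fun x => c x + s = 0).card := by
      intro s hs; simpa [B1] using hs
    have h2 := card_nsmul_le_sum B1 _ 3 h1
    have hd : (B1 : Set R64).PairwiseDisjoint fun s => univ.filter fun x => c x + s = 0 := by
      intro s _ t _ hst
      refine disjoint_left.mpr fun x hx hx' => hst ?_
      simp at hx hx'
      linear_combination hx - hx'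
    have h3 : (B1.biUnion fun s => univ.filter fun x => c x + s = 0).card
        = ∑ s ∈ B1, (univ.filter fun x => c x + s = 0).card := card_biUnion hd
    have h4 := card_le_card (subset_univ (B1.biUnion fun s => univ.filter fun x => c x + s = 0))
    simp only [smul_eq_mul] at h2
    omega
  have hB2 : B2.card * 30 ≤ 192 := by
    set T : R64 → Finset R64 := fun s => univ.filter fun x => c x + s ≠ 0 ∧ 4 * (c x + s) = 0
    have h1 : ∀ s ∈ B2, 30 ≤ (T s).card := by
      intro s hs
      simp only [B2, mem_filter, mem_univ, true_and] at hs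
      have h4b : 4 * b s = 0 := ann_eight _ (hs.2.trans_le (zset_card_le _ _))
      have h4a : 4 * a s = 0 := by
        obtain ⟨x, hx⟩ := card_pos.mp (by omega : 0 < (zset (a s) (b s)).card)
        simp [zset] at hx
        linear_combination (4 : R64) * hx - x * h4b
      have hsub : univ ⊆ zset (a s) (b s) ∪ (univ.filter fun x => c x + s = 0) ∪ T s := by
        intro x _
        simp only [zset, T, mem_union, mem_filter, mem_univ, true_and]
        by_cases e1 : a s + b s * x = 0
        · exact Or.inl (Or.inl e1)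
        by_cases e2 : c x + s = 0
        · exact Or.inl (Or.inr e2)
        refine Or.inr ⟨e2, ?_⟩
        rw [hag s x e1 e2]
        linear_combination h4a + x * h4b
      have hc := card_le_card hsub
      have e1 := card_union_le (zset (a s) (b s) ∪ univ.filter fun x => c x + s = 0) (T s)
      have e2 := card_union_le (zset (a s) (b s)) (univ.filter fun x => c x + s = 0)
      have z1 := zset_card_prim _ _ (hp s)
      omega
    have h2 := card_nsmul_le_sum B2 _ 30 h1
    have h3 : ∑ s ∈ B2, (T s).card ≤ ∑ s : R64, (T s).card :=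
      sum_le_sum_of_subset (subset_univ _)
    have h4 : ∑ s : R64, (T s).card = 192 := by
      simp only [T, card_filter]
      rw [sum_comm]
      have hx : ∀ x : R64, (∑ s : R64, if c x + s ≠ 0 ∧ 4 * (c x + s) = 0 then 1 else 0) = 3 := by
        intro x
        rw [← card_filter]
        refine Eq.trans ?_ card_small_vals
        refine card_bij' (fun s _ => c x + s) (fun y _ => y - c x) ?_ ?_ ?_ ?_ <;> simp
      simp [hx]
    simp only [smul_eq_mul] at h2
    omega
  set G : Finset R64 := univ \ (B1 ∪ B2)
  have hG : 3 ≤ G.card := by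
    have e1 := le_card_sdiff (B1 ∪ B2) (univ : Finset R64)
    have e2 := card_union_le B1 B2
    simp only [G]
    omega
  have key : ∀ s ∈ G, (zset (a s) (b s)).card ≤ 8 ∧
      (univ.filter fun x => c x + s = 0).card ≤ 2 := by
    intro s hs
    simp only [G, B1, B2, mem_sdiff, mem_union, mem_filter, mem_univ, true_and] at hs
    omega
  have same : ∀ s ∈ G, ∀ t ∈ G, a s - s = a t - t ∧ b s = b t := by
    intro s hs t ht
    have hsub : univ ⊆ zset (a s) (b s) ∪ (univ.filter fun x => c x + s = 0) ∪
        (zset (a t) (b t) ∪ (univ.filter fun x => c x + t = 0)) ∪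
        zset ((a s - s) - (a t - t)) (b s - b t) := by
      intro x _
      simp only [zset, mem_union, mem_filter, mem_univ, true_and]
      by_cases e1 : a s + b s * x = 0
      · exact Or.inl (Or.inl (Or.inl e1))
      by_cases e2 : c x + s = 0
      · exact Or.inl (Or.inl (Or.inr e2))
      by_cases e3 : a t + b t * x = 0
      · exact Or.inl (Or.inr (Or.inl e3))
      by_cases e4 : c x + t = 0
      · exact Or.inl (Or.inr (Or.inr e4))
      exact Or.inr (by linear_combination hag t x e3 e4 - hag s x e1 e2)
    have hc := card_le_card hsub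
    obtain ⟨k1, k2⟩ := key s hs
    obtain ⟨k3, k4⟩ := key t ht
    set U1 := zset (a s) (b s)
    set U2 := univ.filter fun x => c x + s = 0
    set U3 := zset (a t) (b t)
    set U4 := univ.filter fun x => c x + t = 0
    set U5 := zset ((a s - s) - (a t - t)) (b s - b t)
    have f1 := card_union_le (U1 ∪ U2 ∪ (U3 ∪ U4)) U5
    have f2 := card_union_le (U1 ∪ U2) (U3 ∪ U4)
    have f3 := card_union_le U1 U2
    have f4 := card_union_le U3 U4
    have := zset_big ((a s - s) - (a t - t)) (b s - b t) (by
      change 32 < U5.card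
      omega)
    exact ⟨sub_eq_zero.mp this.1, sub_eq_zero.mp this.2⟩
  obtain ⟨s0, hs0⟩ := card_pos.mp (by omega : 0 < G.card)
  refine ⟨a s0 - s0, b s0, fun x => ?_⟩
  by_contra hne
  have hsub : G ⊆ {-(a s0 - s0 + b s0 * x), -c x} := by
    intro s hs
    obtain ⟨e1, e2⟩ := same s hs s0 hs0
    simp only [mem_insert, mem_singleton]
    by_cases h1 : a s + b s * x = 0
    · left; linear_combination h1 - e1 - x * e2
    by_cases h2 : c x + s = 0
    · right; linear_combination h2
    exact absurd (by linear_combination hag s x h1 h2 + e1 + x * e2) hne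
  have := card_le_card hsub
  have := card_le_two (a := -(a s0 - s0 + b s0 * x)) (b := -c x)
  omega

lemma isUnit_odd {j : ℤ} (hj : Odd j) : IsUnit (j : R64) := by
  rw [ZMod.coe_int_isUnit_iff_isCoprime]
  obtain ⟨m, rfl⟩ := hj
  have : IsCoprime ((2 : ℤ) ^ 6) (2 * m + 1) :=
    IsCoprime.pow_left ⟨-m, 1, by ring⟩
  simpa using this

lemma natCast_inj64 {s t : ℕ} (hs : s < 64) (ht : t < 64) (h : (s : R64) = t) : s = t := by
  rw [ZMod.natCast_eq_natCast_iff'] at h
  omega

/-- The reconstruction lemma. -/
lemma lines (W : ℕ → ℤ → R64)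
    (H : ∀ u j : ℤ, (Odd j ∨ j = 2) → ∃ δ : R64, ∀ t : ℕ, t < 64 →
      ((u + t * j : ℤ) : R64) + δ ≠ 0 →
        W t (u + t * j) = ((u + t * j : ℤ) : R64) + δ) :
    ∃ c : R64, ∀ t : ℕ, t < 64 → ∀ k : ℤ, (k : R64) + c ≠ 0 → W t k = (k : R64) + c := by
  classical
  choose δ hδ using H
  have meet : ∀ (u j u' j' : ℤ) (h : Odd j ∨ j = 2) (h' : Odd j' ∨ j' = 2), ∀ t : ℕ, t < 64 →
      ∀ t' : ℕ, t' = t → u + t * j = u' + t' * j' → ((u + t * j : ℤ) : R64) + δ u j h ≠ 0 →
      ((u + t * j : ℤ) : R64) + δ u' j' h' ≠ 0 → δ u j h = δ u' j' h' := by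
    intro u j u' j' h h' t ht t' ett e r1 r2
    subst ett
    have a1 := hδ u j h _ ht r1
    have a2 := hδ u' j' h' _ ht (by rw [← e]; exact r2)
    rw [← e] at a2
    exact add_left_cancel (a1.symm.trans a2)
  have step1 : ∀ (u j j' : ℤ) (h : Odd j) (h' : Odd j'),
      δ u j (Or.inl h) = δ u j' (Or.inl h') := by
    have core : ∀ (u j j' : ℤ) (h : Odd j) (h' : Odd j'),
        (u : R64) + δ u j (Or.inl h) = 0 → δ u j (Or.inl h) = δ u j' (Or.inl h') := by
      intro u j j' h h' e0
      by_contra hne
      set d1 := δ u j (Or.inl h)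
      set c := δ u j' (Or.inl h')
      have uj := isUnit_odd h
      have uj' := isUnit_odd h'
      obtain ⟨t, ht1, ht2, hta, htb⟩ : ∃ t : ℕ, 1 ≤ t ∧ t ≤ 3 ∧
          (u : R64) + ((t + 1 : ℕ) : R64) * j' + c ≠ 0 ∧ (u : R64) + (t : R64) * j + c ≠ 0 := by
        by_contra hh
        push Not at hh
        have inj1 : ∀ s t : ℕ, 1 ≤ s → s ≤ 3 → 1 ≤ t → t ≤ 3 →
            (u : R64) + (s : R64) * j + c = 0 → (u : R64) + (t : R64) * j + c = 0 → s = t := by
          intro s t _ hs _ ht e1 e2
          refine natCast_inj64 (by omega) (by omega) (uj.mul_right_cancel ?_)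
          linear_combination e1 - e2
        have inj2 : ∀ s t : ℕ, 1 ≤ s → s ≤ 3 → 1 ≤ t → t ≤ 3 →
            (u : R64) + ((s + 1 : ℕ) : R64) * j' + c = 0 →
            (u : R64) + ((t + 1 : ℕ) : R64) * j' + c = 0 → s = t := by
          intro s t _ hs _ ht e1 e2
          have := natCast_inj64 (s := s + 1) (t := t + 1) (by omega) (by omega)
            (uj'.mul_right_cancel (by linear_combination e1 - e2))
          omega
        by_cases p1 : (u : R64) + ((1 + 1 : ℕ) : R64) * j' + c = 0
        · have q2 := hh 2 (by omega) (by omega)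
            fun e => by have := inj2 1 2 (by omega) (by omega) (by omega) (by omega) p1 e; omega
          have q3 := hh 3 (by omega) (by omega)
            fun e => by have := inj2 1 3 (by omega) (by omega) (by omega) (by omega) p1 e; omega
          have := inj1 2 3 (by omega) (by omega) (by omega) (by omega) q2 q3
          omega
        · have q1 := hh 1 (by omega) (by omega) p1
          by_cases p2 : (u : R64) + ((2 + 1 : ℕ) : R64) * j' + c = 0
          · have q3 := hh 3 (by omega) (by omega)
              fun e => by have := inj2 2 3 (by omega) (by omega) (by omega) (by omega) p2 e; omega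
            have := inj1 1 3 (by omega) (by omega) (by omega) (by omega) q1 q3
            omega
          · have q2 := hh 2 (by omega) (by omega) p2
            have := inj1 1 2 (by omega) (by omega) (by omega) (by omega) q1 q2
            omega
      set m : ℤ := ((t + 1 : ℕ) : ℤ) * j' - (t : ℤ) * j with hm
      have hmodd : Odd m := by
        have e : m = ((t : ℤ) + 1) * (j' - j) + j := by rw [hm]; push_cast; ring
        rw [e]
        exact ((h'.sub_odd h).mul_left _).add_odd h
      set uM : ℤ := u + (t : ℤ) * j - (t : ℤ) * m with huM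
      set dM := δ uM m (Or.inl hmodd)
      have p1 : u + (t : ℤ) * j = uM + (t : ℤ) * m := by rw [huM]; ring
      have p2 : u + ((t + 1 : ℕ) : ℤ) * j' = uM + ((t + 1 : ℕ) : ℤ) * m := by
        rw [huM, hm]; push_cast; ring
      have tne : (t : R64) ≠ 0 := fun e => by
        have := natCast_inj64 (s := t) (t := 0) (by omega) (by omega) (by simpa using e)
        omega
      have r1 : ((u + (t : ℤ) * j : ℤ) : R64) + d1 ≠ 0 := by
        intro e; push_cast at e
        exact tne (uj.mul_left_eq_zero.mp (by linear_combination e - e0))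
      have r2 : ((u + ((t + 1 : ℕ) : ℤ) * j' : ℤ) : R64) + c ≠ 0 := by
        intro e; push_cast at e hta; exact hta (by linear_combination e)
      by_cases s1 : ((u + (t : ℤ) * j : ℤ) : R64) + dM = 0
      · by_cases s2 : ((u + ((t + 1 : ℕ) : ℤ) * j' : ℤ) : R64) + dM = 0
        · rw [p1] at s1; rw [p2] at s2
          push_cast at s1 s2
          have hu1 := isUnit_odd hmodd
          have hm0 : (m : R64) = 0 := by linear_combination s2 - s1
          rw [hm0] at hu1
          obtain ⟨w, hw⟩ := hu1.exists_left_inv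
          rw [mul_zero] at hw
          exact (by decide : (0 : R64) ≠ 1) hw
        · have e := meet u j' uM m (Or.inl h') (Or.inl hmodd) (t + 1) (by omega) _ rfl p2 r2 s2
          change c = dM at e
          rw [← e] at s1
          push_cast at s1
          exact htb (by linear_combination s1)
      · have e := meet u j uM m (Or.inl h) (Or.inl hmodd) t (by omega) _ rfl p1 r1 s1
        change d1 = dM at e
        by_cases s2 : ((u + ((t + 1 : ℕ) : ℤ) * j' : ℤ) : R64) + dM = 0
        · rw [← e] at s2
          push_cast at s2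
          have : ((t + 1 : ℕ) : R64) = 0 := uj'.mul_left_eq_zero.mp (by
            push_cast; linear_combination s2 - e0)
          have := natCast_inj64 (s := t + 1) (t := 0) (by omega) (by omega) (by simpa using this)
          omega
        · have e' := meet u j' uM m (Or.inl h') (Or.inl hmodd) (t + 1) (by omega) _ rfl p2 r2 s2
          exact hne (e.trans e'.symm)
    intro u j j' h h'
    by_cases e0 : (u : R64) + δ u j (Or.inl h) = 0
    · exact core u j j' h h' e0
    by_cases e0' : (u : R64) + δ u j' (Or.inl h') = 0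
    · exact (core u j' j h' h e0').symm
    exact meet u j u j' (Or.inl h) (Or.inl h') 0 (by omega) 0 rfl (by simp)
      (by simpa using e0) (by simpa using e0')
  set c : ℤ → R64 := fun u => δ u 1 (Or.inl odd_one)
  have step2 : ∀ u, c u = c (u + 2) := by
    intro u
    obtain ⟨j, hj, e1, e2⟩ : ∃ j : ℤ, Odd j ∧
        ((u + 2 + j : ℤ) : R64) + c u ≠ 0 ∧ ((u + 2 + j : ℤ) : R64) + c (u + 2) ≠ 0 := by
      by_contra hh
      push Not at hh
      have a1 := hh 1 (by decide)
      have a3 := hh 3 (by decide)
      have a5 := hh 5 (by decide)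
      push_cast at a1 a3 a5
      have n2 : (2 : R64) ≠ 0 := by decide
      have n4 : (4 : R64) ≠ 0 := by decide
      by_cases p1 : (u : R64) + 2 + 1 + c u = 0
      · have q3 := a3 fun e => n2 (by linear_combination e - p1)
        have q5 := a5 fun e => n4 (by linear_combination e - p1)
        exact n2 (by linear_combination q5 - q3)
      · have q1 := a1 p1
        by_cases p3 : (u : R64) + 2 + 3 + c u = 0
        · have q5 := a5 fun e => n2 (by linear_combination e - p3)
          exact n4 (by linear_combination q5 - q1)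
        · exact n2 (by linear_combination a3 p3 - q1)
    have hj2 : Odd (j + 2) := hj.add_even even_two
    have := meet u (j + 2) (u + 2) j (Or.inl hj2) (Or.inl hj) 1 (by omega) 1 rfl
      (by push_cast; ring)
      (by rw [step1 u (j + 2) 1 hj2 odd_one]; convert e1 using 3; push_cast; ring)
      (by rw [step1 (u + 2) j 1 hj odd_one]; convert e2 using 3; push_cast; ring)
    rwa [step1 u (j + 2) 1 hj2 odd_one, step1 (u + 2) j 1 hj odd_one] at this
  have step3 : ∀ u, c u = c (u + 1) := by
    intro u
    set dM := δ u 2 (Or.inr rfl)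
    have pick : ∀ (w : R64) (t0 : ℕ), t0 ≤ 1 → c (u + t0) = w → dM = w := by
      intro w t0 ht0 hw
      obtain ⟨t, ht, hc, e1, e2⟩ : ∃ t : ℕ, t < 64 ∧ c (u + t) = w ∧
          ((u + t * 2 : ℤ) : R64) + w ≠ 0 ∧ ((u + t * 2 : ℤ) : R64) + dM ≠ 0 := by
        have w2 : c (u + ((t0 + 2 : ℕ) : ℤ)) = w := by
          rw [← hw, step2 (u + (t0 : ℤ))]; congr 1; push_cast; ring
        have w4 : c (u + ((t0 + 4 : ℕ) : ℤ)) = w := by
          rw [← w2, step2 (u + ((t0 + 2 : ℕ) : ℤ))]; congr 1; push_cast; ring
        by_contra hh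
        push Not at hh
        have a1 := hh t0 (by omega) hw
        have a3 := hh (t0 + 2) (by omega) w2
        have a5 := hh (t0 + 4) (by omega) w4
        push_cast at a1 a3 a5
        have n2 : (4 : R64) ≠ 0 := by decide
        have n4 : (8 : R64) ≠ 0 := by decide
        by_cases p1 : (u : R64) + t0 * 2 + w = 0
        · have q3 := a3 fun e => n2 (by linear_combination e - p1)
          have q5 := a5 fun e => n4 (by linear_combination e - p1)
          exact n2 (by linear_combination q5 - q3)
        · have q1 := a1 p1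
          by_cases p3 : (u : R64) + (t0 + 2) * 2 + w = 0
          · have q5 := a5 fun e => n2 (by linear_combination e - p3)
            exact n4 (by linear_combination q5 - q1)
          · exact n2 (by linear_combination a3 p3 - q1)
      rw [← hc] at e1
      exact (meet u 2 (u + t) 1 (Or.inr rfl) (Or.inl odd_one) t ht t rfl (by ring) e2 e1).trans hc
    rw [← pick (c u) 0 (by omega) (by simp), ← pick (c (u + 1)) 1 le_rfl (by simp)]
  have cc : ∀ u, c u = c 0 := by
    intro u
    induction u using Int.induction_on with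
    | zero => rfl
    | succ i ih => rw [← step3]; exact ih
    | pred i ih => rw [step3 (-(i : ℤ) - 1)]; simpa using ih
  refine ⟨c 0, fun t ht k hk => ?_⟩
  have h := hδ (k - t) 1 (Or.inl odd_one) t ht
  change ((k - t + t * 1 : ℤ) : R64) + c (k - t) ≠ 0 →
    W t (k - t + t * 1) = ((k - t + t * 1 : ℤ) : R64) + c (k - t) at h
  rw [cc, show k - (t : ℤ) + t * 1 = k by ring] at h
  exact h hk

/-- The digit read from a number not divisible by 4096. -/
def digit (m : ℤ) : R64 := if (64 : ℤ) ∣ m then ((m / 64 : ℤ) : R64) else (m : R64)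

def Prim (a b : ℤ) : Prop := ¬ ((64 : ℤ) ∣ a ∧ (64 : ℤ) ∣ b)

def Compat (v : ℕ → ℤ → R64) (i j a b : ℤ) : Prop :=
  ∀ n : ℕ, n < 4096 → ¬ (4096 : ℤ) ∣ a + (n : ℤ) * b → v n (i + n * j) = digit (a + n * b)

def R0 (v : ℕ → ℤ → R64) : Prop := ∀ i j, ∃ a b, Prim a b ∧ Compat v i j a b

def Good (v : ℕ → ℤ → R64) (l : R64) (c : R64 → R64) : Prop :=
  IsUnit l ∧ ∀ n : ℕ, n < 4096 → ∀ k : ℤ, l * k + c n ≠ 0 → v n k = l * k + c n

lemma compat_mod {v : ℕ → ℤ → R64} {i j a b : ℤ} (h : Compat v i j a b) {n : ℕ} (hn : n < 4096)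
    (hne : (a : R64) + (n : R64) * b ≠ 0) : v n (i + n * j) = (a : R64) + (n : R64) * b := by
  have h64 : ¬ (64 : ℤ) ∣ a + (n : ℤ) * b := by
    intro hd; apply hne
    have := (ZMod.intCast_zmod_eq_zero_iff_dvd (a + (n : ℤ) * b) 64).mpr (by exact_mod_cast hd)
    push_cast at this; exact this
  rw [h n hn fun hd => h64 ((by norm_num : (64 : ℤ) ∣ 4096).trans hd), digit, if_neg h64]
  push_cast; ring

lemma prim_cast {a b : ℤ} (h : Prim a b) : ¬ ((a : R64) = 0 ∧ (b : R64) = 0) := by
  rintro ⟨ha, hb⟩
  exact h ⟨by exact_mod_cast (ZMod.intCast_zmod_eq_zero_iff_dvd a 64).mp ha,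
    by exact_mod_cast (ZMod.intCast_zmod_eq_zero_iff_dvd b 64).mp hb⟩

theorem no_periodic_good : ∀ (P : ℕ), 0 < P → ∀ (v : ℕ → ℤ → R64) (l : R64) (c : R64 → R64),
    Good v l c → R0 v → (∀ n : ℕ, n < 4096 → ∀ k, v n (k + P) = v n k) → False := by
  intro P
  induction P using Nat.strong_induction_on with
  | _ P ih =>
  intro hP v l c ⟨hl, hg⟩ hR hper
  classical
  obtain ⟨li, hli⟩ := hl.exists_left_inv
  have hdiv : 64 ∣ P := by
    have ex : ∃ k : ℤ, l * k + c (0 : ℕ) ≠ 0 ∧ l * ((k + P : ℤ) : R64) + c (0 : ℕ) ≠ 0 := by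
      by_contra hh
      push Not at hh
      have a0 := hh 0
      have a1 := hh 1
      have a2 := hh 2
      push_cast at a0 a1 a2
      have n1 : (1 : R64) ≠ 0 := by decide
      have n2 : (2 : R64) ≠ 0 := by decide
      have cl : ∀ {x : R64}, l * x = 0 → x = 0 := fun hx => by
        linear_combination li * hx - _ * hli
      by_cases p0 : l * 0 + c 0 = 0
      · have q1 := a1 fun e => n1 (cl (by linear_combination e - p0))
        have q2 := a2 fun e => n2 (cl (by linear_combination e - p0))
        exact n1 (cl (by linear_combination q2 - q1))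
      · have q0 := a0 p0
        by_cases p1 : l * 1 + c 0 = 0
        · have q2 := a2 fun e => n1 (cl (by linear_combination e - p1))
          exact n2 (cl (by linear_combination q2 - q0))
        · exact n1 (cl (by linear_combination a1 p1 - q0))
    obtain ⟨k, h1, h2⟩ := ex
    have e := hper 0 (by norm_num) k
    rw [hg 0 (by norm_num) k h1, hg 0 (by norm_num) _ h2] at e
    push_cast at e
    have : (P : R64) = 0 := by linear_combination li * e - (P : R64) * hli
    exact (ZMod.natCast_eq_zero_iff P 64).mp this
  obtain ⟨P', rfl⟩ := hdiv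
  -- the offsets are affine
  obtain ⟨α, β, hc⟩ : ∃ α β : R64, ∀ x, c x = α + β * x := by
    apply affine_of_shifts
    intro s
    obtain ⟨a, b, hp, hcm⟩ := hR ((li * s).val : ℤ) 0
    refine ⟨a, b, prim_cast hp, fun x h1 h2 => ?_⟩
    have hi : l * (((li * s).val : ℤ) : R64) = s := by
      push_cast; rw [ZMod.natCast_val, ZMod.cast_id]; linear_combination s * hli
    have hx : ((x.val : ℕ) : R64) = x := by simp
    have hxlt : x.val < 4096 := lt_of_lt_of_le (ZMod.val_lt x) (by norm_num)
    have e1 := compat_mod hcm hxlt (by rw [hx]; rwa [mul_comm] at h1)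
    have e2 := hg _ hxlt ((li * s).val : ℤ) (by rw [hx, hi, add_comm]; exact h2)
    rw [mul_zero, add_zero] at e1
    rw [e1, hx, hi] at e2
    linear_combination -e2
  -- translate
  set I : ℤ := (((-(li * α)) : R64).val : ℤ) with hI
  set J : ℤ := (((-(li * β)) : R64).val : ℤ) with hJ
  have hI' : l * (I : R64) + α = 0 := by
    rw [hI]; push_cast; rw [ZMod.natCast_val, ZMod.cast_id]; linear_combination -α * hli
  have hJ' : l * (J : R64) + β = 0 := by
    rw [hJ]; push_cast; rw [ZMod.natCast_val, ZMod.cast_id]; linear_combination -β * hli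
  set v' : ℕ → ℤ → R64 := fun n k => v n (k + I + n * J) with hv'
  have hg' : ∀ n : ℕ, n < 4096 → ∀ k : ℤ, l * (k : R64) ≠ 0 → v' n k = l * (k : R64) := by
    intro n hn k hk
    have e : l * ((k + I + n * J : ℤ) : R64) + c n = l * (k : R64) := by
      rw [hc]; push_cast; linear_combination hI' + (n : R64) * hJ'
    rw [hv', ← e]
    exact hg n hn _ (by rw [e]; exact hk)
  have hR' : R0 v' := by
    intro i j
    obtain ⟨a, b, hp, hcm⟩ := hR (i + I) (j + J)
    refine ⟨a, b, hp, fun n hn hnd => ?_⟩
    rw [← hcm n hn hnd, hv']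
    exact congrArg (v n) (by ring)
  -- knowledge at sites with slope odd or two
  have know : ∀ i j : ℤ, (Odd j ∨ j = 2) → ∃ a b : ℤ, Compat v' i j a b ∧
      (a : R64) = l * i ∧ (b : R64) = l * j := by
    intro i j hj
    obtain ⟨a, b, hp, hcm⟩ := hR' i j
    have hann : ann (l * (j : R64)) ≤ 2 := by
      have key : ann (l * (j : R64)) = ann (j : R64) := by
        unfold ann; congr 1; ext x
        simp only [mem_filter, mem_univ, true_and]
        exact ⟨fun h => by linear_combination li * h - (j : R64) * x * hli,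
          fun h => by linear_combination l * h⟩
      rw [key]
      rcases hj with hj | rfl
      · have : ∀ x : R64, (j : R64) * x = 0 → x = 0 := fun x hx =>
          (isUnit_odd hj).mul_right_eq_zero.mp hx
        have hsub : (univ.filter fun x : R64 => (j : R64) * x = 0) ⊆ {0} := fun x hx => by
          simp at hx; simp [this x hx]
        exact (card_le_card hsub).trans (by simp)
      · push_cast; decide +kernel
    refine ⟨a, b, hcm, ident _ _ _ _ (prim_cast hp) hann fun x h1 h2 => ?_⟩
    have hx : ((x.val : ℕ) : R64) = x := by simp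
    have hxlt : x.val < 4096 := lt_of_lt_of_le (ZMod.val_lt x) (by norm_num)
    have hcast : l * ((i + (x.val : ℤ) * j : ℤ) : R64) = l * i + l * j * x := by
      push_cast; rw [hx]; ring
    have e1 := compat_mod hcm hxlt (by rw [hx]; rwa [mul_comm] at h1)
    rw [hg' _ hxlt _ (by rw [hcast]; exact h2), hcast, hx] at e1
    linear_combination -e1
  -- next level offsets
  have next1 : ∀ x : R64, ∃ d : R64, ∀ t : ℕ, t < 64 → ∀ k : ℤ, (k : R64) + d ≠ 0 →
      v' (x.val + 64 * t) (64 * k) = l * ((k : R64) + d) := by
    intro x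
    obtain ⟨d, hd⟩ := lines (fun t k => li * v' (x.val + 64 * t) (64 * k)) (fun u j hj => by
      obtain ⟨a, b, hcm, ha, hb⟩ := know (64 * u - x.val * j) j hj
      have hdv : (64 : ℤ) ∣ a + (x.val : ℤ) * b := by
        have : ((a + (x.val : ℤ) * b : ℤ) : R64) = 0 := by
          push_cast; rw [ha, hb]; push_cast
          have : (64 : R64) = 0 := by decide
          linear_combination l * (u : R64) * this
        exact_mod_cast (ZMod.intCast_zmod_eq_zero_iff_dvd _ 64).mp this
      obtain ⟨g, hgam⟩ := hdv
      refine ⟨li * (g : R64) - u, fun t ht hne => ?_⟩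
      have hn : x.val + 64 * t < 4096 := by have := ZMod.val_lt x; omega
      have e : a + ((x.val + 64 * t : ℕ) : ℤ) * b = 64 * (g + t * b) := by
        push_cast; linear_combination hgam
      have hnz : ¬ (64 : ℤ) ∣ g + t * b := by
        intro hd; apply hne
        have := (ZMod.intCast_zmod_eq_zero_iff_dvd (g + (t : ℤ) * b) 64).mpr (by exact_mod_cast hd)
        push_cast at this ⊢; rw [hb] at this
        linear_combination li * this - (t : R64) * (j : R64) * hli
      have h4 : ¬ (4096 : ℤ) ∣ a + ((x.val + 64 * t : ℕ) : ℤ) * b := by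
        rw [e]; intro hd; apply hnz
        have : (64 : ℤ) * 64 ∣ 64 * (g + t * b) := by norm_num; exact hd
        exact (mul_dvd_mul_iff_left (by norm_num)).mp this
      have hv := hcm _ hn h4
      rw [digit, e, if_pos (dvd_mul_right _ _), Int.mul_ediv_cancel_left _ (by norm_num)] at hv
      have epos : 64 * u - (x.val : ℤ) * j + ((x.val + 64 * t : ℕ) : ℤ) * j = 64 * (u + t * j) := by
        push_cast; ring
      rw [epos] at hv
      rw [hv]
      push_cast
      rw [hb]
      linear_combination (t : R64) * (j : R64) * hli)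
    refine ⟨d, fun t ht k hk => ?_⟩
    have := hd t ht k hk
    linear_combination l * this - v' (x.val + 64 * t) (64 * k) * hli
  choose d hd using next1
  have hP' : 0 < P' := by omega
  refine ih P' (by omega) hP' (fun n k => v' n (64 * k)) l (fun x => l * d x) ⟨hl, ?_⟩ ?_ ?_
  · intro n hn k hk
    have e : (n : R64).val + 64 * (n / 64) = n := by
      rw [ZMod.val_natCast]; omega
    have := hd (n : R64) (n / 64) (by omega) k (fun h0 => hk (by linear_combination l * h0))
    rw [e] at this
    show v' n (64 * k) = _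
    rw [this]; ring
  · intro i j
    obtain ⟨a, b, hp, hcm⟩ := hR' (64 * i) (64 * j)
    refine ⟨a, b, hp, fun n hn hnd => ?_⟩
    rw [← hcm n hn hnd]
    exact congrArg (v' n) (by ring)
  · intro n hn k
    show v n _ = v n _
    rw [← hper n hn (64 * k + I + n * J)]
    exact congrArg (v n) (by push_cast; ring)

theorem no_periodic_sudoku (v : ℕ → ℤ → R64) (K0 K1 K2 : ℤ → R64)
    (hlin : ∀ i j, K1 (i + j) = K0 i + K2 j)
    (hpar : ∀ i : ℤ, ∀ i' : ℤ, i' = i + 1 →
      ZMod.castHom (show 2 ∣ 64 by norm_num) (ZMod 2) (K0 i' - K0 i) = 1)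
    (hR : ∀ i j, ∃ a b, Prim a b ∧ Compat v i j a b ∧
      (¬ (K0 i = 0 ∧ K2 j = 0) → (a : R64) = K0 i ∧ (b : R64) = K2 j))
    (P : ℕ) (hP : 0 < P) (hper : ∀ n : ℕ, n < 4096 → ∀ k, v n (k + P) = v n k) : False := by
  set l := K2 1 - K2 0 with hl
  have h0 : ∀ i, K0 (i + 1) = K0 i + l := by
    intro i
    have a := hlin (i + 1) 0
    have b := hlin i 1
    rw [add_zero] at a
    linear_combination b - a
  have h2 : ∀ j, K2 (j + 1) = K2 j + l := by
    intro j
    have a := hlin 1 j
    have b := hlin 0 (j + 1)
    rw [zero_add, show (1 : ℤ) + j = j + 1 by ring] at *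
    have c := h0 0
    rw [zero_add] at c
    linear_combination a - b + c
  have hK : ∀ (K : ℤ → R64), (∀ i, K (i + 1) = K i + l) → ∀ i : ℤ, K i = K 0 + l * i := by
    intro K h i
    induction i using Int.induction_on with
    | zero => simp
    | succ i ih => rw [h, ih]; push_cast; ring
    | pred i ih =>
      have := h (-(i : ℤ) - 1)
      rw [sub_add_cancel] at this
      rw [ih] at this
      push_cast at this ⊢
      linear_combination -this
  have hu : IsUnit l := by
    have := hpar 0 1 (by ring)
    rw [show K0 1 - K0 0 = l by have := h0 0; rw [zero_add] at this; linear_combination this] at this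
    obtain ⟨m, hm⟩ := unit_of_parity l this
    exact IsUnit.of_mul_eq_one_right m hm
  refine no_periodic_good P hP v l (fun x => K0 0 + x * K2 0) ⟨hu, fun n hn k hk => ?_⟩
    (fun i j => let ⟨a, b, h1, h2, _⟩ := hR i j; ⟨a, b, h1, h2⟩) hper
  obtain ⟨a, b, _, hcm, hab⟩ := hR k 0
  have hk0 := hK K0 h0 k
  have := hab (by
    rintro ⟨e1, e2⟩
    apply hk
    linear_combination hk0.symm.trans e1 + (n : R64) * e2)
  have e := compat_mod hcm hn (by rw [this.1, this.2, hk0]; intro e; apply hk; linear_combination e)
  rw [mul_zero, add_zero] at e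
  rw [e, this.1, this.2, hk0]; ring

end Vale.Agent.P043
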