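/-
P043: a finite system of lists on `ℤ² × rows` with only nonperiodic solutions.
-/
import Vale.Agent.P043.Or
import Vale.Agent.P043.Sudoku

namespace Vale.Agent.P043

open Function Finset

/-- A site state: two clock values and a row of digits coming from one pair `(a, b)`. -/
def StateOK (s : R64 × R64 × (Fin 4096 → R64)) : Prop :=
  ∃ a b : ℤ, Prim a b ∧
    (∀ n : Fin 4096, ¬ (4096 : ℤ) ∣ a + (n.val : ℤ) * b → s.2.2 n = digit (a + (n.val : ℤ) * b)) ∧
    (¬ (s.1 = 0 ∧ s.2.1 = 0) → (a : R64) = s.1 ∧ (b : R64) = s.2.1)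

abbrev St := { s : R64 × R64 × (Fin 4096 → R64) // StateOK s }

noncomputable instance : Fintype St := Fintype.ofFinite _

/-- The options: states, digit attributes and clock attributes. -/
inductive Opt
  | st (s : St)
  | v (n : Fin 4096) (a : R64)
  | k (w : Fin 3) (a : R64)

noncomputable instance : DecidableEq Opt := Classical.decEq _

instance : Finite Opt :=
  Finite.of_injective (β := St ⊕ (Fin 4096 × R64) ⊕ (Fin 3 × R64))
    (fun o => match o with
      | .st s => Sum.inl s
      | .v n a => Sum.inr (Sum.inl (n, a))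
      | .k w a => Sum.inr (Sum.inr (w, a)))
    (by
      intro x y h
      cases x <;> cases y <;> simp_all)

noncomputable instance : Fintype Opt := Fintype.ofFinite _

/-- Distinct odd primes for the options. -/
noncomputable def pr (o : Opt) : ℕ := Nat.nth Nat.Prime ((Fintype.equivFin Opt o : ℕ) + 1)

lemma pr_prime (o : Opt) : (pr o).Prime :=
  Nat.nth_mem_of_infinite Nat.infinite_setOf_prime _

lemma pr_ge (o : Opt) : 3 ≤ pr o := by
  rw [← Nat.nth_prime_one_eq_three]
  exact Nat.nth_monotone Nat.infinite_setOf_prime (by omega)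

lemma pr_inj : Injective pr := by
  intro a b h
  have := Nat.nth_injective Nat.infinite_setOf_prime h
  exact (Fintype.equivFin Opt).injective (Fin.ext (by omega))

instance (o : Opt) : NeZero (pr o) := ⟨(pr_prime o).ne_zero⟩

abbrev C := Col pr
abbrev D := Dom pr

noncomputable abbrev rowU (o : Opt) : Row pr := Pi.single o 1
noncomputable abbrev uU (o : Opt) : D := (0, rowU o)
noncomputable abbrev site (z : ℤ × ℤ) : D := (z, 0)

noncomputable def prA : C →+ ZMod 2 := (AddMonoidHom.fst _ _).comp (AddMonoidHom.snd _ _)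
noncomputable def prB : C →+ ZMod 2 := (AddMonoidHom.snd _ _).comp (AddMonoidHom.snd _ _)
noncomputable def inA : ZMod 2 →+ C := (AddMonoidHom.inr _ _).comp (AddMonoidHom.inl _ _)
noncomputable def inB : ZMod 2 →+ C := (AddMonoidHom.inr _ _).comp (AddMonoidHom.inr _ _)
noncomputable def prC : C →+ ZMod 2 := prA + prB

/-- The direction along which an attribute is constant. -/
def kdir (w : Fin 3) : ℤ × ℤ := ![(0, 1), (-1, 1), (1, 0)] w

def dirOf : Opt → ℤ × ℤ
  | .st _ => 0
  | .v n _ => (-(n.val : ℤ), 1)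
  | .k w _ => kdir w

def kval (s : St) (w : Fin 3) : R64 := ![s.1.1, s.1.1 + s.1.2.1, s.1.2.1] w

def par2 (a : R64) : ZMod 2 := ZMod.castHom (show 2 ∣ 64 by norm_num) (ZMod 2) a

abbrev E := Eqn D C

noncomputable def eqInv (p : Opt × Opt) : E :=
  if p.1 = p.2 then trivEqn else twist (prO pr p.1) (inO pr p.1) (uU p.2) 0

noncomputable def eqLine (o : Opt) : E :=
  twist (prO pr o) (inO pr o) (site (dirOf o)) 0

noncomputable def eqAB : Fin 4 → E :=
  ![twist prA inA (site (0, 2)) 1, twist prA inA (site (1, 1)) 0,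
    twist prB inB (site (0, 2)) 1, twist prB inB (site (1, 0)) 0]

noncomputable def eqABrow (p : Bool × Opt) : E :=
  if p.1 then twist prA inA (uU p.2) 0 else twist prB inB (uU p.2) 0

def stateOne : R64 × R64 × (Fin 4096 → R64) := (0, 0, fun _ => 1)

lemma stateOne_ok : StateOK stateOne := by
  refine ⟨1, 0, by unfold Prim; norm_num, fun n _ => ?_, fun h => absurd ⟨rfl, rfl⟩ h⟩
  simp [stateOne, digit]

noncomputable def eqOrS : E :=
  orEqn pr (univ.image Opt.st) (Opt.st ⟨stateOne, stateOne_ok⟩)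

noncomputable def eqOrV (n : Fin 4096) : E := orEqn pr (univ.image (Opt.v n)) (Opt.v n 0)

noncomputable def eqOrK (w : Fin 3) : E := orEqn pr (univ.image (Opt.k w)) (Opt.k w 0)

noncomputable def eqSV (p : St × Fin 4096 × R64) : E :=
  if p.2.2 = p.1.1.2.2 p.2.1 then trivEqn else
    cond (prO pr (Opt.st p.1)) (prO pr (Opt.v p.2.1 p.2.2)) (inO pr (Opt.v p.2.1 p.2.2))
      (uU (Opt.st p.1)) (uU (Opt.v p.2.1 p.2.2)) 0

noncomputable def eqSK (p : St × Fin 3 × R64) : E :=
  if p.2.2 = kval p.1 p.2.1 then trivEqn else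
    cond (prO pr (Opt.st p.1)) (prO pr (Opt.k p.2.1 p.2.2)) (inO pr (Opt.k p.2.1 p.2.2))
      (uU (Opt.st p.1)) (uU (Opt.k p.2.1 p.2.2)) 0

noncomputable def eqPar (a : R64) : E :=
  cond (prO pr (Opt.k 0 a)) prC inA (uU (Opt.k 0 a)) (site (0, 1)) (par2 a)

/-- All equations. -/
noncomputable def Eqns : Set E :=
  Set.range eqInv ∪ Set.range eqLine ∪ Set.range eqAB ∪ Set.range eqABrow ∪ {eqOrS}
    ∪ Set.range eqOrV ∪ Set.range eqOrK ∪ Set.range eqSV ∪ Set.range eqSK ∪ Set.range eqPar

lemma eqns_finite : Eqns.Finite := by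
  unfold Eqns
  simp only [Set.finite_union, Set.finite_singleton, Set.finite_range, and_self]

lemma prC_inA (x : ZMod 2) : prC (inA x) = x := by simp [prC, prA, prB, inA]

lemma prO_inA (o : Opt) (x : ZMod 2) : prO pr o (inA x) = 0 := by simp [prO, inA]

/-! ### No periodic solution -/

section
variable {f : D → C} (hf : ∀ L ∈ Eqns, Holds L f)
include hf

lemma inv_row {o t : Opt} (h : o ≠ t) (y : D) : prO pr o (f (y + uU t)) = prO pr o (f y) := by
  have := hf (eqInv (o, t)) (by simp [Eqns])
  rw [eqInv, if_neg h, twist_holds_iff _ _ (prO_inO pr o)] at this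
  simpa using this y

lemma inv_line (o : Opt) (y : D) : prO pr o (f (y + site (dirOf o))) = prO pr o (f y) := by
  have := hf (eqLine o) (by simp [Eqns])
  rw [eqLine, twist_holds_iff _ _ (prO_inO pr o)] at this
  simpa using this y

lemma inv_A (t : Opt) (y : D) : prA (f (y + uU t)) = prA (f y) := by
  have := hf (eqABrow (true, t)) (by simp [Eqns])
  rw [eqABrow, if_pos rfl, twist_holds_iff _ _ (by intro x; simp [prA, inA])] at this
  simpa using this y

lemma inv_B (t : Opt) (y : D) : prB (f (y + uU t)) = prB (f y) := by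
  have := hf (eqABrow (false, t)) (by simp [Eqns])
  rw [eqABrow, if_neg Bool.false_ne_true,
    twist_holds_iff _ _ (by intro x; simp [prB, inB])] at this
  simpa using this y

lemma A_two (y : D) : prA (f (y + site (0, 2))) = prA (f y) + 1 :=
  (twist_holds_iff _ _ (by intro x; simp [prA, inA]) _ _ _).mp
    (hf (eqAB 0) (by simp [Eqns])) y

lemma A_diag (y : D) : prA (f (y + site (1, 1))) = prA (f y) := by
  simpa using (twist_holds_iff _ _ (by intro x; simp [prA, inA]) _ _ _).mp
    (hf (eqAB 1) (by simp [Eqns])) y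

lemma B_two (y : D) : prB (f (y + site (0, 2))) = prB (f y) + 1 :=
  (twist_holds_iff _ _ (by intro x; simp [prB, inB]) _ _ _).mp
    (hf (eqAB 2) (by simp [Eqns])) y

lemma B_hor (y : D) : prB (f (y + site (1, 0))) = prB (f y) := by
  simpa using (twist_holds_iff _ _ (by intro x; simp [prB, inB]) _ _ _).mp
    (hf (eqAB 3) (by simp [Eqns])) y

omit hf in
/-- Invariance along every other axis means dependence on one coordinate only. -/
lemma dep_of_inv {K : Type*} [AddCommGroup K] (p : C →+ K) (S : Set Opt)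
    (h : ∀ t ∈ S, ∀ y, p (f (y + uU t)) = p (f y)) (x : ℤ × ℤ) (r r' : Row pr)
    (e : ∀ t, t ∉ S → r t = r' t) : p (f (x, r)) = p (f (x, r')) := by
  classical
  have single : ∀ t ∈ S, ∀ m : ℕ, ∀ r0 : Row pr,
      p (f (x, r0 + Pi.single t (m : ZMod (pr t)))) = p (f (x, r0)) := by
    intro t ht m
    induction m with
    | zero => intro r0; simp
    | succ m ih =>
      intro r0
      have := h t ht (x, r0 + Pi.single t (m : ZMod (pr t)))
      have e2 : ((x, r0 + Pi.single t (m : ZMod (pr t))) : D) + uU t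
          = (x, r0 + Pi.single t ((m + 1 : ℕ) : ZMod (pr t))) := by
        refine Prod.ext (by simp) ?_
        simp [uU, rowU, add_assoc, Pi.single_add]
      rw [e2] at this
      rw [this, ih]
  have many : ∀ T : Finset Opt, ∀ r0 : Row pr,
      p (f (x, r0 + ∑ t ∈ T, Pi.single t ((r' - r) t))) = p (f (x, r0)) := by
    intro T
    induction T using Finset.induction with
    | empty => simp
    | @insert t T ht ih =>
      intro r0
      rw [sum_insert ht, ← add_assoc, ih]
      by_cases hS : t ∈ S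
      · have := single t hS (((r' - r) t).val) r0
        rwa [ZMod.natCast_val, ZMod.cast_id] at this
      · have : (r' - r) t = 0 := by rw [Pi.sub_apply, e t hS, sub_self]
        simp [this]
  have := many univ r
  rw [Finset.univ_sum_single, add_sub_cancel] at this
  exact this.symm

lemma rowDep : RowDep pr f := by
  constructor
  · intro o x r r' e
    refine dep_of_inv (prO pr o) {t | t ≠ o} (fun t ht y => inv_row hf (Ne.symm ht) y) x r r' ?_
    intro t ht
    simp at ht; subst ht; exact e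
  · intro x r r'
    exact Prod.ext (dep_of_inv prA Set.univ (fun t _ y => inv_A hf t y) x r r' (by simp))
      (dep_of_inv prB Set.univ (fun t _ y => inv_B hf t y) x r r' (by simp))

omit hf in
/-- Option `o` is active at site `x`. -/
def Act (f : D → C) (o : Opt) (x : ℤ × ℤ) : Prop :=
  ∃ r, prO pr o (f ((x, r) + uU o)) ≠ prO pr o (f (x, r))

omit hf in
lemma act_of_varies {o : Opt} {x : ℤ × ℤ} {r r' : Row pr} (hd : RowDep pr f)
    (h : prO pr o (f (x, r)) ≠ prO pr o (f (x, r'))) : Act f o x := by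
  by_contra hn
  simp only [Act, not_exists, not_not] at hn
  apply h
  have e : ∀ m : ℕ, prO pr o (f (x, Pi.single o (m : ZMod (pr o))))
      = prO pr o (f (x, 0)) := by
    intro m
    induction m with
    | zero => simp
    | succ m ih =>
      have := hn (Pi.single o (m : ZMod (pr o)))
      rw [ih] at this
      rw [← this]
      refine congrArg (fun z => prO pr o (f z)) ?_
      refine Prod.ext (by simp) ?_
      simp [uU, rowU, Pi.single_add]
  have red : ∀ r : Row pr, prO pr o (f (x, r)) = prO pr o (f (x, 0)) := by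
    intro r
    have := e (r o).val
    rw [ZMod.natCast_val, ZMod.cast_id] at this
    rw [← this]
    exact hd.opt o x _ _ (by simp)
  rw [red r, red r']

lemma act_exists_st (x : ℤ × ℤ) : ∃ s, Act f (Opt.st s) x := by
  obtain ⟨o, ho, r, r', h⟩ :=
    or_forces pr pr_ge (by simp) (rowDep hf) (hf eqOrS (by simp [Eqns])) x
  simp only [mem_image, mem_univ, true_and] at ho
  obtain ⟨s, rfl⟩ := ho
  exact ⟨s, act_of_varies (rowDep hf) h⟩

lemma act_exists_v (n : Fin 4096) (x : ℤ × ℤ) : ∃ a, Act f (Opt.v n a) x := by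
  obtain ⟨o, ho, r, r', h⟩ :=
    or_forces pr pr_ge (by simp) (rowDep hf) (hf (eqOrV n) (by simp [Eqns])) x
  simp only [mem_image, mem_univ, true_and] at ho
  obtain ⟨a, rfl⟩ := ho
  exact ⟨a, act_of_varies (rowDep hf) h⟩

lemma act_exists_k (w : Fin 3) (x : ℤ × ℤ) : ∃ a, Act f (Opt.k w a) x := by
  obtain ⟨o, ho, r, r', h⟩ :=
    or_forces pr pr_ge (by simp) (rowDep hf) (hf (eqOrK w) (by simp [Eqns])) x
  simp only [mem_image, mem_univ, true_and] at ho
  obtain ⟨a, rfl⟩ := ho
  exact ⟨a, act_of_varies (rowDep hf) h⟩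

lemma excl {s : St} {t : Opt} (hst : Opt.st s ≠ t)
    (h : Holds (cond (prO pr (Opt.st s)) (prO pr t) (inO pr t) (uU (Opt.st s)) (uU t) 0) f)
    {x : ℤ × ℤ} (hs : Act f (Opt.st s) x) : ¬ Act f t x := by
  rw [cond_holds_iff _ _ _ (prO_inO pr t) (prO_inO_ne pr hst) _ _ _ _
    (fun y => inv_row hf hst y) (fun y => inv_row hf hst.symm y)] at h
  rintro ⟨r', hr'⟩
  obtain ⟨r, hr⟩ := hs
  set r'' : Row pr := Function.update r t (r' t) with hr''
  have d := rowDep hf
  rcases h (x, r'') with h1 | h1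
  · apply hr
    have e1 : prO pr (Opt.st s) (f (x, r'')) = prO pr (Opt.st s) (f (x, r)) :=
      d.opt _ x _ _ (by simp [hr'', hst])
    have e2 : prO pr (Opt.st s) (f ((x, r'') + uU (Opt.st s)))
        = prO pr (Opt.st s) (f ((x, r) + uU (Opt.st s))) := by
      simp only [uU, Prod.mk_add_mk]
      exact d.opt _ _ _ _ (by simp [hr'', hst])
    rw [← e1, ← e2]; exact h1
  · apply hr'
    rw [add_zero] at h1
    have e1 : prO pr t (f (x, r'')) = prO pr t (f (x, r')) := d.opt _ x _ _ (by simp [hr''])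
    have e2 : prO pr t (f ((x, r'') + uU t)) = prO pr t (f ((x, r') + uU t)) := by
      simp only [uU, Prod.mk_add_mk]
      exact d.opt _ _ _ _ (by simp [hr''])
    rw [← e1, ← e2]; exact h1

lemma v_only {s : St} {n : Fin 4096} {a : R64} {x : ℤ × ℤ} (hs : Act f (Opt.st s) x)
    (ha : Act f (Opt.v n a) x) : a = s.1.2.2 n := by
  by_contra hne
  have := hf (eqSV (s, n, a)) (by simp [Eqns])
  rw [eqSV, if_neg hne] at this
  exact excl hf (by simp) this hs ha

lemma k_only {s : St} {w : Fin 3} {a : R64} {x : ℤ × ℤ} (hs : Act f (Opt.st s) x)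
    (ha : Act f (Opt.k w a) x) : a = kval s w := by
  by_contra hne
  have := hf (eqSK (s, w, a)) (by simp [Eqns])
  rw [eqSK, if_neg hne] at this
  exact excl hf (by simp) this hs ha

lemma act_line (o : Opt) (x : ℤ × ℤ) (m : ℤ) : Act f o (x + m • dirOf o) ↔ Act f o x := by
  have step : ∀ x, Act f o (x + dirOf o) ↔ Act f o x := by
    intro x
    unfold Act
    have key : ∀ r : Row pr, prO pr o (f (x + dirOf o, r)) = prO pr o (f (x, r)) := by
      intro r
      have := inv_line hf o (x, r)
      simpa [site] using this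
    constructor <;> rintro ⟨r, hr⟩ <;> refine ⟨r, ?_⟩
    · simpa [uU, key] using hr
    · simpa [uU, key] using hr
  induction m using Int.induction_on with
  | zero => simp
  | succ i ih => rw [add_smul, one_smul, ← add_assoc, step]; exact ih
  | pred i ih =>
    rw [← step, add_assoc]
    convert ih using 3
    rw [sub_smul, one_smul, sub_add_cancel]

/-- The parity of the first clock alternates. -/
lemma parity_step (i : ℤ) :
    prC (f ((i + 1, 1), 0)) - prC (f ((i + 1, 0), 0))
      = prC (f ((i, 1), 0)) - prC (f ((i, 0), 0)) + 1 := by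
  have a := A_diag hf ((i, -1), 0)
  have a' := A_diag hf ((i, 0), 0)
  have a2 := A_two hf ((i, -1), 0)
  have b := B_hor hf ((i, 0), 0)
  have b' := B_hor hf ((i, 1), 0)
  simp only [site, Prod.mk_add_mk, add_zero] at a a' a2 b b'
  norm_num at a a' a2 b b'
  simp only [prC, AddMonoidHom.add_apply]
  rw [a', a, b, b', a2]
  have two : (2 : ZMod 2) = 0 := by decide
  linear_combination (prA (f ((i, 0), 0)) - prA (f ((i, -1), 0)) - 1) * two

lemma k0_parity {a : R64} {i : ℤ} (ha : Act f (Opt.k 0 a) (i, 0)) :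
    par2 a = prC (f ((i, 1), 0)) - prC (f ((i, 0), 0)) := by
  have h := hf (eqPar a) (by simp [Eqns])
  rw [eqPar, cond_holds_iff _ _ _ prC_inA (prO_inA _) _ _ _ _
    (fun y => by simpa [dirOf, kdir] using inv_line hf (Opt.k 0 a) y)
    (fun y => by simp only [prC, AddMonoidHom.add_apply, inv_A hf, inv_B hf])] at h
  obtain ⟨r, hr⟩ := ha
  rcases h ((i, 0), r) with h1 | h1
  · exact absurd h1 hr
  · have d := (rowDep hf).extra
    have e : ∀ z r, prC (f (z, r)) = prC (f (z, 0)) := fun z r => by
      simp only [prC, prA, prB, AddMonoidHom.add_apply, AddMonoidHom.comp_apply,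
        AddMonoidHom.coe_fst, AddMonoidHom.coe_snd, d z r 0]
    simp only [site, Prod.mk_add_mk, add_zero, zero_add] at h1
    rw [e, e (i, 0)] at h1
    rw [h1]; abel

theorem no_periodic (P : ℕ) (hP : 0 < P)
    (hper : ∀ (x : ℤ × ℤ) (r : Row pr), f (x + ((P : ℤ), 0), r) = f (x, r)) : False := by
  classical
  choose s hs using act_exists_st hf
  have actper : ∀ o x, Act f o (x + ((P : ℤ), 0)) ↔ Act f o x := by
    intro o x
    simp [Act, uU, hper]
  set v : ℕ → ℤ → R64 := fun n k => if h : n < 4096 then (s (k, 0)).1.2.2 ⟨n, h⟩ else 0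
  set K : Fin 3 → ℤ → R64 := fun w k =>
    kval (s (if w = 2 then (0, k) else (k, 0))) w
  have hv : ∀ (n : Fin 4096) (i j : ℤ), (s (i, j)).1.2.2 n = v n (i + n * j) := by
    intro n i j
    obtain ⟨a, ha⟩ := act_exists_v hf n (i, j)
    have ha' : Act f (Opt.v n a) (i + n.val * j, 0) := by
      rw [← act_line hf (Opt.v n a) (i + n.val * j, 0) j]
      convert ha using 1
      simp [dirOf]; ring
    rw [← v_only hf (hs _) ha, v_only hf (hs _) ha']
    simp [v, n.isLt]
  have hk : ∀ (w : Fin 3) (i j : ℤ),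
      kval (s (i, j)) w = K w (![i, i + j, j] w) := by
    intro w i j
    obtain ⟨a, ha⟩ := act_exists_k hf w (i, j)
    rw [← k_only hf (hs _) ha]
    fin_cases w
    · have ha' : Act f (Opt.k 0 a) (i, 0) := by
        rw [← act_line hf (Opt.k 0 a) (i, 0) j]
        convert ha using 1 <;> simp [dirOf, kdir]
      exact k_only hf (hs _) ha'
    · have ha' : Act f (Opt.k 1 a) (i + j, 0) := by
        rw [← act_line hf (Opt.k 1 a) (i + j, 0) j]
        convert ha using 1 <;> simp [dirOf, kdir]
      exact k_only hf (hs _) ha'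
    · have ha' : Act f (Opt.k 2 a) (0, j) := by
        rw [← act_line hf (Opt.k 2 a) (0, j) i]
        convert ha using 1 <;> simp [dirOf, kdir]
      exact k_only hf (hs _) ha'
  refine no_periodic_sudoku v (K 0) (K 1) (K 2) ?_ ?_ ?_ P hP ?_
  · intro i j
    have a := hk 0 i j
    have b := hk 1 i j
    have c := hk 2 i j
    simp [kval] at a b c
    rw [← a, ← b, ← c]
  · intro i i' e
    subst e
    have key : ∀ i, par2 (K 0 i) = prC (f ((i, 1), 0)) - prC (f ((i, 0), 0)) := by
      intro i
      obtain ⟨a, ha⟩ := act_exists_k hf 0 (i, 0)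
      have := k_only hf (hs _) ha
      rw [← k0_parity hf ha, this]
      simp [K]
    show par2 (K 0 (i + 1) - K 0 i) = 1
    unfold par2 at key ⊢
    rw [map_sub, key, key, parity_step hf i]; abel
  · intro i j
    obtain ⟨a, b, hp, hc, hab⟩ := (s (i, j)).2
    refine ⟨a, b, hp, fun n hn hnd => ?_, ?_⟩
    · rw [← hv ⟨n, hn⟩ i j]
      exact hc ⟨n, hn⟩ hnd
    · have a0 := hk 0 i j
      have c0 := hk 2 i j
      simp [kval] at a0 c0
      rw [← a0, ← c0]
      exact hab
  · intro n hn k
    simp only [v, dif_pos hn]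
    obtain ⟨a, ha⟩ := act_exists_v hf ⟨n, hn⟩ (k, 0)
    have ha' := (actper _ _).mpr ha
    rw [Prod.mk_add_mk, add_zero] at ha'
    rw [← v_only hf (hs _) ha, ← v_only hf (hs _) ha']

end

/-! ### A solution -/

/-- The last nonzero base-64 digit, with value `1` at zero. -/
noncomputable def dig (k : ℤ) : R64 :=
  if h0 : k = 0 then 1 else
    if (64 : ℤ) ∣ k then dig (k / 64) else (k : R64)
termination_by k.natAbs
decreasing_by omega

lemma dig_mul (k : ℤ) : dig (64 * k) = dig k := by
  by_cases h : k = 0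
  · subst h; rfl
  · rw [dig, dif_neg (by omega), if_pos (dvd_mul_right _ _),
      Int.mul_ediv_cancel_left _ (by norm_num)]

lemma dig_digit {m : ℤ} (h : ¬ (4096 : ℤ) ∣ m) : dig m = digit m := by
  unfold digit
  split_ifs with h1
  · obtain ⟨k, rfl⟩ := h1
    have hk : ¬ (64 : ℤ) ∣ k := fun hd => h (by
      obtain ⟨l, rfl⟩ := hd; exact ⟨l, by ring⟩)
    rw [dig_mul, Int.mul_ediv_cancel_left _ (by norm_num), dig,
      dif_neg (by rintro rfl; exact hk (dvd_zero _)), if_neg hk]
  · rw [dig, dif_neg (by rintro rfl; exact h1 (dvd_zero _)), if_neg h1]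

lemma witness : ∀ (N : ℕ) (i j : ℤ), i.natAbs + j.natAbs ≤ N →
    ∃ a b, Prim a b ∧ (Prim i j → a = i ∧ b = j) ∧
      ∀ n : ℤ, ¬ (4096 : ℤ) ∣ a + n * b → dig (i + n * j) = digit (a + n * b) := by
  intro N
  induction N using Nat.strong_induction_on with
  | _ N ih =>
  intro i j hN
  by_cases hp : Prim i j
  · exact ⟨i, j, hp, fun _ => ⟨rfl, rfl⟩, fun n h => dig_digit h⟩
  unfold Prim at hp
  push Not at hp
  obtain ⟨⟨i', rfl⟩, ⟨j', rfl⟩⟩ := hp
  by_cases h0 : i' = 0 ∧ j' = 0
  · obtain ⟨rfl, rfl⟩ := h0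
    refine ⟨1, 0, by unfold Prim; norm_num,
      fun h => absurd ⟨dvd_mul_right _ _, dvd_mul_right _ _⟩ h, fun n _ => ?_⟩
    rw [dig, dif_pos (by ring)]
    simp [digit]
  · obtain ⟨a, b, hab, -, hd⟩ := ih (i'.natAbs + j'.natAbs) (by
      simp only [Int.natAbs_mul] at hN
      have : i'.natAbs + j'.natAbs ≠ 0 := by omega
      simp at hN; omega) i' j' le_rfl
    refine ⟨a, b, hab, fun h => absurd ⟨dvd_mul_right _ _, dvd_mul_right _ _⟩ h, fun n h => ?_⟩
    rw [← hd n h, ← dig_mul (i' + n * j')]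
    congr 1; ring

lemma genuine_ok (x : ℤ × ℤ) :
    StateOK ((x.1 : R64), (x.2 : R64), fun n => dig (x.1 + (n.val : ℤ) * x.2)) := by
  obtain ⟨a, b, hp, hij, hd⟩ := witness _ x.1 x.2 le_rfl
  refine ⟨a, b, hp, fun n h => hd _ h, fun h => ?_⟩
  have : Prim x.1 x.2 := by
    rintro ⟨h1, h2⟩
    exact h ⟨(ZMod.intCast_zmod_eq_zero_iff_dvd _ 64).mpr (by exact_mod_cast h1),
      (ZMod.intCast_zmod_eq_zero_iff_dvd _ 64).mpr (by exact_mod_cast h2)⟩
  obtain ⟨rfl, rfl⟩ := hij this
  exact ⟨rfl, rfl⟩

noncomputable def genuine (x : ℤ × ℤ) : St := ⟨_, genuine_ok x⟩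

/-- The selected options at a site. -/
def Sel : Opt → ℤ × ℤ → Prop
  | .st s, x => s = genuine x
  | .v n a, x => dig (x.1 + (n.val : ℤ) * x.2) = a
  | .k w a, x => ((![x.1, x.1 + x.2, x.2] w : ℤ) : R64) = a

open Classical in
noncomputable def sol (y : D) : C :=
  (fun o => if Sel o y.1 then y.2 o else 0,
    ((((y.1.2 - y.1.1) / 2 : ℤ) : ZMod 2), ((y.1.2 / 2 : ℤ) : ZMod 2)))

lemma sel_line (o : Opt) (x : ℤ × ℤ) : Sel o (x + dirOf o) ↔ Sel o x := by
  cases o with
  | st s => simp [dirOf]
  | v n a =>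
    simp only [Sel, dirOf, Prod.fst_add, Prod.snd_add]
    rw [show x.1 + -(n.val : ℤ) + (n.val : ℤ) * (x.2 + 1) = x.1 + (n.val : ℤ) * x.2 by ring]
  | k w a =>
    fin_cases w <;> simp [Sel, dirOf, kdir]
    rw [show ((x.1 : R64) + -1 + (x.2 + 1)) = x.1 + x.2 by ring]

lemma sol_rowDep : RowDep pr sol := by
  constructor
  · intro o x r r' e
    simp [prO, sol, e]
  · intro x r r'; rfl

lemma sol_or {β : Type} [Fintype β] (g : β → Opt) (b0 : β) (pick : ℤ × ℤ → β)
    (hpick : ∀ x b, Sel (g b) x ↔ b = pick x) :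
    Holds (orEqn pr (univ.image g) (g b0)) sol := by
  refine or_holds pr pr_ge (by simp) sol_rowDep fun x => ⟨g (pick x), by simp, ?_, ?_⟩
  · intro r; simp [prO, sol, (hpick x _).mpr rfl]
  · intro o ho hne r r'
    simp only [mem_image, mem_univ, true_and] at ho
    obtain ⟨b, rfl⟩ := ho
    have : ¬ Sel (g b) x := fun h => hne (by rw [(hpick x b).mp h])
    simp [prO, sol, this]

theorem sol_holds : ∀ L ∈ Eqns, Holds L sol := by
  classical
  intro L hL
  simp only [Eqns, Set.mem_union, Set.mem_range, Set.mem_singleton_iff] at hL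
  rcases hL with ((((((((⟨⟨o, t⟩, rfl⟩ | ⟨o, rfl⟩) | ⟨i, rfl⟩) | ⟨⟨b, t⟩, rfl⟩) | rfl) |
    ⟨n, rfl⟩) | ⟨w, rfl⟩) | ⟨⟨s, n, a⟩, rfl⟩) | ⟨⟨s, w, a⟩, rfl⟩) | ⟨a, rfl⟩
  · unfold eqInv
    split_ifs with h
    · exact holds_triv _
    · rw [twist_holds_iff _ _ (prO_inO pr _)]
      intro y
      have e : (y + uU t).2 o = y.2 o := by simp [uU, rowU, h]
      simp [prO, sol, h]
  · rw [eqLine, twist_holds_iff _ _ (prO_inO pr _)]
    intro y
    simp [prO, sol, site, sel_line]
  · fin_cases i <;> simp [eqAB]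
    · rw [twist_holds_iff _ _ (by intro x; simp [prA, inA])]
      intro y
      simp only [prA, sol, site, AddMonoidHom.comp_apply, AddMonoidHom.coe_fst,
        AddMonoidHom.coe_snd, Prod.fst_add, Prod.snd_add]
      rw [show (y.1.2 + 2 - (y.1.1 + 0)) / 2 = (y.1.2 - y.1.1) / 2 + 1 by omega]
      push_cast; rfl
    · rw [twist_holds_iff _ _ (by intro x; simp [prA, inA])]
      intro y
      simp [prA, sol, site]
    · rw [twist_holds_iff _ _ (by intro x; simp [prB, inB])]
      intro y
      simp only [prB, sol, site, AddMonoidHom.comp_apply, AddMonoidHom.coe_snd,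
        Prod.fst_add, Prod.snd_add]
      rw [show (y.1.2 + 2) / 2 = y.1.2 / 2 + 1 by omega]
      push_cast; rfl
    · rw [twist_holds_iff _ _ (by intro x; simp [prB, inB])]
      intro y
      simp [prB, sol, site]
  · unfold eqABrow
    cases b <;> simp only [if_true, Bool.false_eq_true, if_false]
    · rw [twist_holds_iff _ _ (by intro x; simp [prB, inB])]
      intro y; simp [prB, sol, uU]
    · rw [twist_holds_iff _ _ (by intro x; simp [prA, inA])]
      intro y; simp [prA, sol, uU]
  · exact sol_or Opt.st _ genuine (fun x b => Iff.rfl)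
  · exact sol_or (Opt.v n) 0 (fun x => dig (x.1 + (n.val : ℤ) * x.2))
      (fun x b => by simp [Sel, eq_comm])
  · exact sol_or (Opt.k w) 0 (fun x => ((![x.1, x.1 + x.2, x.2] w : ℤ) : R64))
      (fun x b => by simp [Sel, eq_comm])
  · unfold eqSV
    split_ifs with h
    · exact holds_triv _
    · rw [cond_holds_iff _ _ _ (prO_inO pr _) (prO_inO_ne pr (by simp)) _ _ _ _
        (fun y => by simp [prO, sol, uU, rowU]) (fun y => by simp [prO, sol, uU, rowU])]
      intro y
      by_cases hs : Sel (Opt.st s) y.1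
      · right
        have : ¬ Sel (Opt.v n a) y.1 := by
          intro hv
          subst hs
          exact h hv.symm
        simp [prO, sol, uU, this]
      · left; simp [prO, sol, uU, hs]
  · unfold eqSK
    split_ifs with h
    · exact holds_triv _
    · rw [cond_holds_iff _ _ _ (prO_inO pr _) (prO_inO_ne pr (by simp)) _ _ _ _
        (fun y => by simp [prO, sol, uU, rowU]) (fun y => by simp [prO, sol, uU, rowU])]
      intro y
      by_cases hs : Sel (Opt.st s) y.1
      · right
        have : ¬ Sel (Opt.k w a) y.1 := by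
          intro hv
          subst hs
          apply h
          rw [← hv]
          fin_cases w <;> simp [kval, genuine]
        simp [prO, sol, uU, this]
      · left; simp [prO, sol, uU, hs]
  · rw [eqPar, cond_holds_iff _ _ _ prC_inA (prO_inA _) _ _ _ _
      (fun y => by
        have := sel_line (Opt.k 0 a) y.1
        simp [dirOf, kdir] at this
        simp [prO, sol, site, this])
      (fun y => by simp [prC, prA, prB, sol, uU])]
    intro y
    by_cases hs : Sel (Opt.k 0 a) y.1
    · right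
      simp only [Sel, Matrix.cons_val_zero] at hs
      subst hs
      simp only [prC, prA, prB, sol, site, par2, AddMonoidHom.add_apply, AddMonoidHom.comp_apply,
        AddMonoidHom.coe_fst, AddMonoidHom.coe_snd, Prod.fst_add, Prod.snd_add, map_intCast]
      rw [← Int.cast_add, ← Int.cast_add, ← Int.cast_add, ZMod.intCast_eq_intCast_iff_dvd_sub]
      push_cast
      rcases Int.even_or_odd' y.1.1 with ⟨a, ha | ha⟩ <;>
        rcases Int.even_or_odd' y.1.2 with ⟨b, hb | hb⟩ <;> omega
    · left; simp [prO, sol, uU, hs]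

end Vale.Agent.P043
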