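/-
P043: the periodic tiling conjecture fails from dimension 4 on.
-/
import Vale.Agent.P043.System
import Vale.Agent.P043.Lift

namespace Vale.Agent.P043

open Function Finset

abbrev Gam := D × C

open Classical in
noncomputable def fibTile : Finset Gam := univ.image fun c : C => ((0 : D), c)

open Classical in
noncomputable def listTile (L : E) : Finset Gam := univ.image fun j : C => (-L.δ j, L.e j)

lemma graph_fib (g : D → C) : Tiles {p : Gam | p.2 = g p.1} fibTile := by
  intro p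
  refine ⟨((p.1, g p.1), (0, p.2 - g p.1)), ⟨rfl, mem_image_of_mem _ (mem_univ _), by simp⟩, ?_⟩
  rintro ⟨⟨d, c⟩, q⟩ ⟨hd, hq, e⟩
  obtain ⟨c', -, rfl⟩ := mem_image.mp hq
  simp only [Prod.mk_add_mk, add_zero] at e
  subst e
  simp only [Set.mem_setOf_eq] at hd
  subst hd
  simp

lemma graph_list (g : D → C) (L : E) (h : Holds L g) :
    Tiles {p : Gam | p.2 = g p.1} (listTile L) := by
  rintro ⟨y, v⟩
  obtain ⟨j, hj⟩ := (h y).surjective v
  dsimp only at hj
  refine ⟨((y + L.δ j, g (y + L.δ j)), (-L.δ j, L.e j)),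
    ⟨rfl, mem_image_of_mem _ (mem_univ _), by simp [hj]⟩, ?_⟩
  rintro ⟨⟨d, c⟩, q⟩ ⟨hd, hq, e⟩
  obtain ⟨j', -, rfl⟩ := mem_image.mp hq
  simp only [Prod.mk_add_mk, Prod.mk.injEq] at e
  simp only [Set.mem_setOf_eq] at hd
  subst hd
  have ed : d = y + L.δ j' := by rw [← e.1]; simp
  subst ed
  have := (h y).injective (a₁ := j') (a₂ := j) (by rw [e.2, hj])
  subst this
  rfl

theorem gam_sysBad : SysBad Gam := by
  classical
  refine ⟨insert fibTile (eqns_finite.toFinset.image listTile), insert_nonempty _ _, ?_,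
    ⟨{p | p.2 = sol p.1}, ?_⟩, ?_⟩
  · intro F hF
    rcases mem_insert.mp hF with rfl | hF
    · exact univ_nonempty.image _
    · obtain ⟨L, -, rfl⟩ := mem_image.mp hF
      exact univ_nonempty.image _
  · intro F hF
    rcases mem_insert.mp hF with rfl | hF
    · exact graph_fib sol
    · obtain ⟨L, hL, rfl⟩ := mem_image.mp hF
      exact graph_list sol L (sol_holds L (eqns_finite.mem_toFinset.mp hL))
  · intro A hA P hP hper
    have hfib : ∀ y, ∃! c, (y, c) ∈ A := by
      intro y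
      obtain ⟨⟨⟨d, c⟩, q⟩, ⟨ha, hq, e⟩, hu⟩ := hA _ (mem_insert_self _ _) (y, 0)
      obtain ⟨c', -, rfl⟩ := mem_image.mp hq
      simp only [Prod.mk_add_mk, add_zero, Prod.mk.injEq] at e
      obtain ⟨rfl, -⟩ := e
      refine ⟨c, ha, fun c2 hc2 => ?_⟩
      have := hu ((d, c2), (0, -c2)) ⟨hc2, mem_image_of_mem _ (mem_univ _), by simp⟩
      simp only [Prod.mk.injEq] at this
      exact this.1.2
    choose g hg hgu using fun y => (hfib y)
    have eqs : ∀ L ∈ Eqns, Holds L g := by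
      intro L hL y
      refine (Finite.surjective_iff_bijective).mp fun v => ?_
      obtain ⟨⟨⟨d, c⟩, q⟩, ⟨ha, hq, e⟩, -⟩ :=
        hA _ (mem_insert_of_mem (mem_image_of_mem _ (eqns_finite.mem_toFinset.mpr hL))) (y, v)
      obtain ⟨j, -, rfl⟩ := mem_image.mp hq
      simp only [Prod.mk_add_mk, Prod.mk.injEq] at e
      have ed : d = y + L.δ j := by rw [← e.1]; simp
      subst ed
      refine ⟨j, ?_⟩
      show g (y + L.δ j) + L.e j = v
      rw [← hgu _ c ha]
      exact e.2
    -- a full period of the finite part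
    set M := P * Fintype.card (Row pr × C)
    have hM : 0 < M := Nat.mul_pos hP Fintype.card_pos
    refine no_periodic eqs M hM fun x r => ?_
    have h1 : (((x + ((M : ℤ), 0), r) : D), g (x, r)) ∈ A := by
      have h0 : ((P • ((((Fintype.card (Row pr × C) : ℤ), 0), (0 : Row pr)), (0 : C))) : Gam)
          = ((((M : ℤ), 0), 0), 0) := by
        simp [M, Prod.smul_mk]
      have := (hper ((x, r), g (x, r)) ((((Fintype.card (Row pr × C) : ℤ), 0), 0), 0)).mpr
        (hg (x, r))
      rw [h0] at this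
      simpa using this
    exact (hgu _ _ h1).symm

abbrev W3 := ℤ × ℤ × ℤ

/-- The covering map from `ℤ × ℤ³`. -/
noncomputable def cover4 : ℤ × W3 →+ Gam where
  toFun x := (((x.1, x.2.1), fun _ => (x.2.2.1 : ZMod _)),
    (fun _ => (x.2.2.2 : ZMod _), ((x.2.2.1 : ZMod 2), (x.2.2.2 : ZMod 2))))
  map_zero' := by
    simp only [Prod.fst_zero, Prod.snd_zero, Int.cast_zero]
    rfl
  map_add' x y := by
    simp only [Prod.fst_add, Prod.snd_add, Int.cast_add]
    rfl

noncomputable abbrev modProd : ℕ := ∏ o : Opt, pr o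

lemma pr_coprime : Pairwise fun a b => Nat.Coprime (pr a) (pr b) := fun a b h =>
  (Nat.coprime_primes (pr_prime a) (pr_prime b)).mpr fun e => h (pr_inj e)

lemma modProd_odd : Nat.Coprime modProd 2 :=
  Nat.Coprime.prod_left fun o _ =>
    (Nat.coprime_primes (pr_prime o) Nat.prime_two).mpr (by have := pr_ge o; omega)

lemma crt_lift (r : Row pr) (b : ZMod 2) :
    ∃ w : ℤ, (∀ o, (w : ZMod (pr o)) = r o) ∧ (w : ZMod 2) = b := by
  set e := ZMod.prodEquivPi pr pr_coprime
  set e2 := ZMod.chineseRemainder modProd_odd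
  set z : ZMod (modProd * 2) := e2.symm (e.symm r, b)
  obtain ⟨w, hw⟩ := ZMod.intCast_surjective z
  have h2 : e2 z = (e.symm r, b) := e2.apply_symm_apply _
  rw [← hw, map_intCast] at h2
  refine ⟨w, fun o => ?_, (congrArg Prod.snd h2 : _)⟩
  have h3 : (w : ZMod modProd) = e.symm r := congrArg Prod.fst h2
  have h4 : e (w : ZMod modProd) = r := by rw [h3]; exact e.apply_symm_apply r
  have h5 := congrFun h4 o
  rw [map_intCast, Pi.intCast_apply] at h5
  exact h5

lemma crt_zero {w : ℤ} (h : ∀ o, (w : ZMod (pr o)) = 0) (h2 : (w : ZMod 2) = 0) :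
    ((modProd * 2 : ℕ) : ℤ) ∣ w := by
  have h1 : (w : ZMod modProd) = 0 := by
    apply (ZMod.prodEquivPi pr pr_coprime).injective
    rw [map_intCast, map_zero]
    funext o
    rw [Pi.intCast_apply]; exact h o
  rw [ZMod.intCast_zmod_eq_zero_iff_dvd] at h1 h2
  push_cast
  exact IsCoprime.mul_dvd (by
    have := Nat.isCoprime_iff_coprime.mpr modProd_odd
    push_cast at this
    exact this) (by exact_mod_cast h1) (by exact_mod_cast h2)

theorem four_sysBad : SysBad (ℤ × W3) := by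
  classical
  set M : ℤ := ((modProd * 2 : ℕ) : ℤ) with hM
  refine sysBad_pullback cover4 ?_ {((0, (0, M, 0)) : ℤ × W3), (0, (0, 0, M))} ?_ ?_ gam_sysBad
  · rintro ⟨⟨⟨i, j⟩, r⟩, ⟨cr, a, b⟩⟩
    obtain ⟨w1, h1, h1'⟩ := crt_lift r a
    obtain ⟨w2, h2, h2'⟩ := crt_lift cr b
    refine ⟨(i, (j, w1, w2)), ?_⟩
    simp [cover4, h1, h1', h2, h2']
  · have hz : ∀ n : ℕ, n ∣ modProd * 2 → (M : ZMod n) = 0 := by
      intro n hn
      rw [hM, Int.cast_natCast]
      exact (ZMod.natCast_eq_zero_iff _ _).mpr hn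
    have ho : ∀ o, (M : ZMod (pr o)) = 0 := fun o =>
      hz _ ((Finset.dvd_prod_of_mem pr (mem_univ o)).mul_right 2)
    have h2 : (M : ZMod 2) = 0 := hz 2 (dvd_mul_left _ _)
    intro k hk
    simp only [mem_insert, mem_singleton] at hk
    rcases hk with rfl | rfl <;> simp [cover4, ho, h2] <;> rfl
  · rintro ⟨i, j, w1, w2⟩ hx
    simp only [cover4, AddMonoidHom.coe_mk, ZeroHom.coe_mk, Prod.ext_iff, Prod.fst_zero,
      Prod.snd_zero] at hx
    obtain ⟨⟨⟨rfl, rfl⟩, hr⟩, hc, h1, h2⟩ := hx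
    obtain ⟨a, ha⟩ := crt_zero (fun o => congrFun hr o) h1
    obtain ⟨b, hb⟩ := crt_zero (fun o => congrFun hc o) h2
    have e : ((0, (0, w1, w2)) : ℤ × W3)
        = a • ((0, (0, M, 0)) : ℤ × W3) + b • ((0, (0, 0, M)) : ℤ × W3) := by
      simp [ha, hb, ← hM, mul_comm]
    rw [e]
    refine add_mem (AddSubgroup.zsmul_mem _ ?_ a) (AddSubgroup.zsmul_mem _ ?_ b) <;>
      exact AddSubgroup.subset_closure (by simp)

theorem four_oneBad : OneBad (ℤ × W3) := by
  classical
  refine oneBad_stack {((1, 0, 0) : W3), (0, 1, 0), (0, 0, 1)} ?_ four_sysBad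
  rw [eq_top_iff]
  rintro ⟨a, b, c⟩ -
  have e : ((a, b, c) : W3) = a • ((1, 0, 0) : W3) + b • ((0, 1, 0) : W3) + c • ((0, 0, 1) : W3) := by
    simp
  rw [e]
  refine add_mem (add_mem (AddSubgroup.zsmul_mem _ ?_ a) (AddSubgroup.zsmul_mem _ ?_ b))
    (AddSubgroup.zsmul_mem _ ?_ c) <;> exact AddSubgroup.subset_closure (by simp)

/-- Coordinates on `ℤ^(4+m)`. -/
def coords (m : ℕ) : (ℤ × W3) × (Fin m → ℤ) ≃+ (Fin (4 + m) → ℤ) where
  toFun p := Fin.append ![p.1.1, p.1.2.1, p.1.2.2.1, p.1.2.2.2] p.2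
  invFun v := ((v (Fin.castAdd m 0), v (Fin.castAdd m 1), v (Fin.castAdd m 2),
    v (Fin.castAdd m 3)), fun i => v (Fin.natAdd 4 i))
  left_inv p := by
    obtain ⟨⟨a, b, c, d⟩, y⟩ := p
    simp [Fin.append_left, Fin.append_right]
  right_inv v := by
    funext i
    induction i using Fin.addCases with
    | left k => fin_cases k <;> simp [Fin.append_left]
    | right k => simp [Fin.append_right]
  map_add' p q := by
    funext i
    induction i using Fin.addCases with
    | left k => fin_cases k <;> simp [Fin.append_left]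
    | right k => simp [Fin.append_right]

theorem oneBad_dim (d : ℕ) (hd : 4 ≤ d) : OneBad (Fin d → ℤ) := by
  obtain ⟨m, rfl⟩ := Nat.exists_eq_add_of_le hd
  exact oneBad_equiv (coords m) (oneBad_prod four_oneBad)

end Vale.Agent.P043
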