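/-
P043: a rigid cube turns a bad discrete tile into a bad measurable one.
-/
import Vale.Agent.P043.Main

namespace Vale.Agent.P043

open Function MeasureTheory Finset
open scoped Pointwise

abbrev Rd (d : ℕ) := Fin d → ℝ

/-- A tiling of `ℝ^d` up to null sets. -/
def RTiles {d : ℕ} (A : Set (Rd d)) (Ω : Set (Rd d)) : Prop :=
  volume {x : Rd d | ∀ a ∈ A, x - a ∉ Ω} = 0 ∧
    ∀ a ∈ A, ∀ b ∈ A, a ≠ b → volume {x : Rd d | x - a ∈ Ω ∧ x - b ∈ Ω} = 0

variable {d : ℕ}

/-- A half-open box with corner `p` and side lengths `w`. -/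
def box (p w : Rd d) : Set (Rd d) := Set.univ.pi fun k => Set.Ico (p k) (p k + w k)

lemma mem_box {p w x : Rd d} : x ∈ box p w ↔ ∀ k, p k ≤ x k ∧ x k < p k + w k := by
  simp [box, Set.mem_pi]

lemma box_pos {p w : Rd d} (h : ∀ k, 0 < w k) : volume (box p w) ≠ 0 := by
  rw [box, volume_pi_pi]
  exact Finset.prod_ne_zero_iff.mpr fun k _ => by simp [Real.volume_Ico, h k]

lemma box_vol (p : Rd d) {s : ℝ} (hs : 0 ≤ s) :
    volume (box p fun _ => s) = ENNReal.ofReal (s ^ d) := by
  rw [box, volume_pi_pi]
  simp [Real.volume_Ico, Finset.prod_const, ← ENNReal.ofReal_pow hs]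

lemma box_measurable (p w : Rd d) : MeasurableSet (box p w) :=
  MeasurableSet.univ_pi fun _ => measurableSet_Ico

noncomputable def corner (i : Fin d) : ℝ := 1 / 4 + (i : ℕ) / (4 * d)

noncomputable def side (i : Fin d) : ℝ := (2 : ℝ) ^ (i : ℕ) / (8 * d * 2 ^ d)

noncomputable def holeSet (i : Fin d) : Set (Rd d) := box (fun _ => corner i) fun _ => side i

def unitCube (d : ℕ) : Set (Rd d) := box (fun _ => 0) fun _ => 1

noncomputable def eVec (i : Fin d) : Rd d := Pi.single i 1

noncomputable def bodySet (d : ℕ) : Set (Rd d) := unitCube d \ ⋃ i : Fin d, holeSet i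

/-- The rigid cube: holes in the middle, the same boxes attached one step away. -/
noncomputable def keyCube (d : ℕ) : Set (Rd d) :=
  bodySet d ∪ ⋃ i : Fin d, {x | x - eVec i ∈ holeSet i}

lemma side_pos (i : Fin d) : 0 < side i := by
  have : 0 < d := i.pos
  have : (0 : ℝ) < d := by exact_mod_cast this
  unfold side; positivity

lemma side_le (i : Fin d) : side i ≤ 1 / (8 * d) := by
  have hd : (0 : ℝ) < d := by exact_mod_cast i.pos
  have h : (2 : ℝ) ^ (i : ℕ) ≤ 2 ^ d := pow_le_pow_right₀ (by norm_num) i.isLt.le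
  unfold side
  rw [div_le_div_iff₀ (by positivity) (by positivity)]
  nlinarith

lemma hole_bounds {i : Fin d} {x : Rd d} (h : x ∈ holeSet i) (k : Fin d) :
    1 / 4 ≤ x k ∧ x k < 3 / 4 := by
  have hd : (0 : ℝ) < d := by exact_mod_cast i.pos
  have hi : ((i : ℕ) : ℝ) + 1 ≤ d := by exact_mod_cast i.isLt
  obtain ⟨h1, h2⟩ := mem_box.mp h k
  have hs := side_le i
  have e : ((i : ℕ) : ℝ) / (4 * d) + 1 / (8 * d) ≤ 1 / 4 := by
    rw [div_add_div _ _ (by positivity) (by positivity), div_le_div_iff₀ (by positivity) (by positivity)]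
    nlinarith
  have : (0 : ℝ) ≤ ((i : ℕ) : ℝ) / (4 * d) := by positivity
  unfold corner at h1 h2
  constructor <;> linarith

lemma corner_gap {i j : Fin d} (h : i < j) :
    corner i + 2 * (1 / (8 * (d : ℝ))) ≤ corner j := by
  have hd : (0 : ℝ) < d := by exact_mod_cast i.pos
  have hij : ((i : ℕ) : ℝ) + 1 ≤ (j : ℕ) := by exact_mod_cast h
  unfold corner
  have e : 2 * (1 / (8 * (d : ℝ))) = 1 / (4 * d) := by field_simp; ring
  rw [e]
  have : (((i : ℕ) : ℝ) + 1) / (4 * d) ≤ ((j : ℕ) : ℝ) / (4 * d) := by gcongr
  rw [add_div] at this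
  linarith

lemma hole_disjoint {i j : Fin d} {x : Rd d} (hi : x ∈ holeSet i) (hj : x ∈ holeSet j) :
    i = j := by
  rcases lt_trichotomy i j with h | h | h
  · have := corner_gap h
    have a := (mem_box.mp hi i).2
    have b := (mem_box.mp hj i).1
    have := side_le i
    have : (0 : ℝ) < 1 / (8 * d) := (side_pos i).trans_le (side_le i)
    linarith
  · exact h
  · have := corner_gap h
    have a := (mem_box.mp hj i).2
    have b := (mem_box.mp hi i).1
    have := side_le j
    have : (0 : ℝ) < 1 / (8 * d) := (side_pos i).trans_le (side_le i)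
    linarith

lemma keyCube_measurable : MeasurableSet (keyCube d) := by
  refine ((box_measurable _ _).diff (MeasurableSet.iUnion fun i => box_measurable _ _)).union
    (MeasurableSet.iUnion fun i => ?_)
  exact (measurable_id.sub_const (eVec i)) (box_measurable _ _)

def intVec (z : Fin d → ℤ) : Rd d := fun k => (z k : ℝ)

lemma intVec_add (a b : Fin d → ℤ) : intVec (a + b) = intVec a + intVec b := by
  funext k; simp [intVec]

lemma intVec_inj : Injective (intVec (d := d)) := fun a b h => by
  funext k
  have : (a k : ℝ) = b k := congrFun h k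
  exact_mod_cast this

lemma intVec_single (i : Fin d) : intVec (Pi.single i 1) = eVec i := by
  funext k
  by_cases h : k = i
  · subst h; simp [intVec, eVec]
  · simp [intVec, eVec, h]

lemma fract_of_cube {y : Rd d} (h : y ∈ unitCube d) (k : Fin d) : ⌊y k⌋ = 0 := by
  obtain ⟨a, b⟩ := mem_box.mp h k
  exact Int.floor_eq_zero_iff.mpr ⟨a, by simpa using b⟩

lemma keyCube_fundamental (x : Rd d) : ∃! z : Fin d → ℤ, x - intVec z ∈ keyCube d := by
  classical
  set n : Fin d → ℤ := fun k => ⌊x k⌋ with hn
  set y : Rd d := x - intVec n with hy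
  have hcube : y ∈ unitCube d := mem_box.mpr fun k => by
    have a := Int.floor_le (x k)
    have b := Int.lt_floor_add_one (x k)
    simp only [hy, hn, intVec, Pi.sub_apply]
    constructor <;> linarith
  have hole_cube : ∀ (i : Fin d) (u : Rd d), u ∈ holeSet i → u ∈ unitCube d := fun i u hu =>
    mem_box.mpr fun k => by have := hole_bounds hu k; constructor <;> linarith
  have flo : ∀ (z : Fin d → ℤ) (u : Rd d), u ∈ unitCube d → x - intVec z = u → z = n := by
    intro z u hu e
    funext k
    have h0 := fract_of_cube hu k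
    rw [← e] at h0
    simp [intVec, Int.floor_sub_intCast] at h0
    show z k = ⌊x k⌋
    omega
  by_cases hh : ∃ i, y ∈ holeSet i
  · obtain ⟨i, hi⟩ := hh
    refine ⟨n - Pi.single i 1, ?_, ?_⟩
    · refine Or.inr (Set.mem_iUnion.mpr ⟨i, ?_⟩)
      show x - intVec (n - Pi.single i 1) - eVec i ∈ holeSet i
      have e : x - intVec (n - Pi.single i 1) - eVec i = y := by
        funext k
        by_cases h : k = i
        · subst h; simp [hy, intVec, eVec]; ring
        · simp [hy, intVec, eVec, h]
      rwa [e]
    · rintro z (hz | hz)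
      · obtain ⟨hz1, hz2⟩ := hz
        have := flo z _ hz1 rfl
        subst this
        exact absurd (Set.mem_iUnion.mpr ⟨i, hi⟩) hz2
      · obtain ⟨j, hj⟩ := Set.mem_iUnion.mp hz
        have e : z + Pi.single j 1 = n := flo _ _ (hole_cube j _ hj) (by
          rw [intVec_add, intVec_single]; abel)
        have hj' : y ∈ holeSet j := by
          rw [hy, ← e, intVec_add, intVec_single, ← sub_sub]; exact hj
        rw [hole_disjoint hi hj', ← e, add_sub_cancel_right]
  · refine ⟨n, Or.inl ⟨hcube, fun h => hh (Set.mem_iUnion.mp h)⟩, ?_⟩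
    rintro z (hz | hz)
    · exact flo z _ hz.1 rfl
    · obtain ⟨j, hj⟩ := Set.mem_iUnion.mp hz
      have e : z + Pi.single j 1 = n := flo _ _ (hole_cube j _ hj) (by
        rw [intVec_add, intVec_single]; abel)
      exact absurd ⟨j, by rw [hy, ← e, intVec_add, intVec_single, ← sub_sub]; exact hj⟩ hh

lemma keyCube_pos (hd : 0 < d) : volume (keyCube d) ≠ 0 := by
  intro h
  refine box_pos (p := fun _ => (0 : ℝ)) (w := fun _ => (1 / 8 : ℝ)) (fun _ => by norm_num)
    (measure_mono_null (fun x hx => ?_) h)
  refine Or.inl ⟨mem_box.mpr fun k => ?_, fun h => ?_⟩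
  · have := mem_box.mp hx k; constructor <;> linarith
  · obtain ⟨i, hi⟩ := Set.mem_iUnion.mp h
    have a := hole_bounds hi ⟨0, hd⟩
    have b := mem_box.mp hx ⟨0, hd⟩
    linarith

lemma keyCube_bounded : Bornology.IsBounded (keyCube d) := by
  refine (Metric.isBounded_Icc (fun _ => (-2 : ℝ)) (fun _ => (2 : ℝ))).subset fun x hx => ?_
  rw [Set.mem_Icc, Pi.le_def, Pi.le_def]
  rcases hx with h | h
  · exact ⟨fun k => by have := mem_box.mp h.1 k; linarith,
      fun k => by have := mem_box.mp h.1 k; linarith⟩
  · obtain ⟨i, hi⟩ := Set.mem_iUnion.mp h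
    have key : ∀ k, -2 ≤ x k ∧ x k ≤ 2 := fun k => by
      have := hole_bounds hi k
      by_cases e : k = i
      · subst e; simp [eVec] at this; constructor <;> linarith
      · simp [eVec, e] at this; constructor <;> linarith
    exact ⟨fun k => (key k).1, fun k => (key k).2⟩

/-- Two translates of the body cannot be close. -/
lemma body_far (hd : 2 ≤ d) {a b : Rd d} (h : ∀ k, |b k - a k| ≤ 3 / 4) :
    volume {x : Rd d | x - a ∈ bodySet d ∧ x - b ∈ bodySet d} ≠ 0 := by
  classical
  set k0 : Fin d := ⟨0, by omega⟩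
  set k1 : Fin d := ⟨1, by omega⟩
  have h01 : k1 ≠ k0 := by simp [k0, k1, Fin.ext_iff]
  set lo : Rd d := fun k => if k = k0 then
      (if 0 ≤ b k - a k then a k + 1 - 1 / 16 else a k) else
      (if 0 ≤ b k - a k then b k else b k + 1 - 1 / 16)
  intro hz
  refine box_pos (p := lo) (w := fun _ => (1 / 16 : ℝ)) (fun _ => by norm_num)
    (measure_mono_null (fun x hx => ?_) hz)
  have H := mem_box.mp hx
  refine ⟨⟨mem_box.mpr fun k => ?_, fun hh => ?_⟩, ⟨mem_box.mpr fun k => ?_, fun hh => ?_⟩⟩
  · have := H k
    have hk := abs_le.mp (h k)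
    simp only [lo] at this
    simp only [Pi.sub_apply]
    split_ifs at this <;> constructor <;> linarith
  · obtain ⟨i, hi⟩ := Set.mem_iUnion.mp hh
    have a' := hole_bounds hi k0
    have := H k0
    simp only [lo, if_true] at this
    simp only [Pi.sub_apply] at a'
    split_ifs at this <;> linarith
  · have := H k
    have hk := abs_le.mp (h k)
    simp only [lo] at this
    simp only [Pi.sub_apply]
    split_ifs at this <;> constructor <;> linarith
  · obtain ⟨i, hi⟩ := Set.mem_iUnion.mp hh
    have a' := hole_bounds hi k1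
    have := H k1
    simp only [lo, if_neg h01] at this
    simp only [Pi.sub_apply] at a'
    split_ifs at this <;> linarith

lemma box_ae_subset {p q : Rd d} {s t : ℝ} (hs : 0 < s)
    (h : volume (box p (fun _ => s) \ box q fun _ => t) = 0) (k : Fin d) :
    q k ≤ p k ∧ p k + s ≤ q k + t := by
  classical
  constructor
  · by_contra hlt
    push Not at hlt
    refine box_pos (p := p) (w := Function.update (fun _ => s) k (min s (q k - p k)))
      (fun j => ?_) (measure_mono_null (fun x hx => ?_) h)
    · by_cases e : j = k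
      · subst e; simp [hs, sub_pos.mpr hlt]
      · simp [e, hs]
    · have H := mem_box.mp hx
      refine ⟨mem_box.mpr fun j => ?_, fun hh => ?_⟩
      · by_cases e : j = k
        · subst e
          have := H j
          simp only [Function.update_self] at this
          exact ⟨this.1, by have := min_le_left s (q j - p j); linarith⟩
        · simpa [e] using H j
      · have := H k
        simp only [Function.update_self] at this
        have := min_le_right s (q k - p k)
        have := (mem_box.mp hh k).1
        linarith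
  · by_contra hlt
    push Not at hlt
    refine box_pos (p := Function.update p k (max (p k) (q k + t)))
      (w := Function.update (fun _ => s) k (p k + s - max (p k) (q k + t)))
      (fun j => ?_) (measure_mono_null (fun x hx => ?_) h)
    · by_cases e : j = k
      · subst e; simp [hs, hlt]
      · simp [e, hs]
    · have H := mem_box.mp hx
      refine ⟨mem_box.mpr fun j => ?_, fun hh => ?_⟩
      · by_cases e : j = k
        · subst e
          have := H j
          simp only [Function.update_self] at this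
          have := le_max_left (p j) (q j + t)
          constructor <;> linarith
        · simpa [e] using H j
      · have := H k
        simp only [Function.update_self] at this
        have := le_max_right (p k) (q k + t)
        have := (mem_box.mp hh k).2
        linarith

section Rigid

variable (hd : 2 ≤ d) {B : Set (Rd d)} (hB : RTiles B (keyCube d))
include hd hB

lemma separated {a b : Rd d} (ha : a ∈ B) (hb : b ∈ B) (h : ∀ k, |b k - a k| ≤ 3 / 4) :
    a = b := by
  by_contra hne
  refine body_far hd h (measure_mono_null ?_ (hB.2 a ha b hb hne))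
  intro x hx
  exact ⟨Or.inl hx.1, Or.inl hx.2⟩

lemma countable_centres : B.Countable := by
  have : Set.InjOn (fun (x : Rd d) (k : Fin d) => ⌊2 * x k⌋) B := by
    intro a ha b hb e
    refine separated hd hB ha hb fun k => ?_
    have ek : ⌊2 * a k⌋ = ⌊2 * b k⌋ := congrFun e k
    have := Int.floor_le (2 * a k)
    have := Int.lt_floor_add_one (2 * a k)
    have := Int.floor_le (2 * b k)
    have := Int.lt_floor_add_one (2 * b k)
    have e2 : (⌊2 * a k⌋ : ℝ) = ⌊2 * b k⌋ := by exact_mod_cast ek
    rw [abs_le]; constructor <;> linarith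
  exact Set.countable_of_injective_of_countable_image this (Set.to_countable _)

lemma step_back {a : Rd d} (ha : a ∈ B) (i : Fin d) : a - eVec i ∈ B := by
  classical
  by_contra hnot
  set Hb : Fin d → Rd d → Set (Rd d) := fun j b =>
    box (fun k => b k + eVec j k + corner j) fun _ => side j
  set H : Set (Rd d) := box (fun k => a k + corner i) fun _ => side i
  set Bad : Set (Fin d × Rd d) :=
    {q | q.2 ∈ B ∧ volume (Hb q.1 q.2 ∩ H) ≠ 0}
  -- a contributor sits inside the hole and is strictly smaller
  have inside : ∀ q ∈ Bad, volume (Hb q.1 q.2 \ H) = 0 ∧ q.1 < i := by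
    rintro ⟨j, b⟩ ⟨hb, hpos⟩
    dsimp only at hb hpos ⊢
    obtain ⟨x0, hx1, hx2⟩ := nonempty_of_measure_ne_zero hpos
    have d8 : (0 : ℝ) < 1 / (8 * d) := (side_pos i).trans_le (side_le i)
    have d16 : 1 / (8 * (d : ℝ)) ≤ 1 / 16 := by
      have : (2 : ℝ) ≤ d := by exact_mod_cast hd
      rw [div_le_div_iff₀ (by positivity) (by norm_num)]; linarith
    have near : ∀ x ∈ Hb j b, ∀ k, |(x k - a k) - (x0 k - a k)| < 1 / (8 * d) := by
      intro x hx k
      have := mem_box.mp hx k
      have := mem_box.mp hx1 k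
      have := side_le j
      rw [abs_lt]; constructor <;> linarith
    have ha0 : x0 - a ∈ holeSet i := mem_box.mpr fun k => by
      have := mem_box.mp hx2 k; simp only [Pi.sub_apply]; constructor <;> linarith
    have hba : b ≠ a := by
      intro e; subst e
      have := mem_box.mp hx1 j
      have := hole_bounds ha0 j
      have : x0 - b - eVec j ∈ holeSet j := mem_box.mpr fun k => by
        have := mem_box.mp hx1 k; simp only [Pi.sub_apply]; constructor <;> linarith
      have := hole_bounds this j
      simp [eVec] at this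
      have := hole_bounds ha0 j
      simp at this
      linarith
    have hnull : volume (Hb j b \ H) = 0 := by
      refine measure_mono_null ?_ (hB.2 a ha b hb hba.symm)
      intro x hx
      have hxb : x - b - eVec j ∈ holeSet j := mem_box.mpr fun k => by
        have := mem_box.mp hx.1 k; simp only [Pi.sub_apply]; constructor <;> linarith
      refine ⟨Or.inl ⟨mem_box.mpr fun k => ?_, fun hh => ?_⟩, Or.inr (Set.mem_iUnion.mpr ⟨j, hxb⟩)⟩
      · have := abs_lt.mp (near x hx.1 k)
        have := hole_bounds ha0 k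
        simp only [Pi.sub_apply] at this ⊢
        constructor <;> linarith
      · obtain ⟨l, hl⟩ := Set.mem_iUnion.mp hh
        have hl' := mem_box.mp hl i
        have h0' := mem_box.mp ha0 i
        have hn := abs_lt.mp (near x hx.1 i)
        simp only [Pi.sub_apply] at hl' h0'
        have := side_le l
        have := side_le i
        rcases lt_trichotomy l i with hli | hli | hli
        · have := corner_gap hli; linarith
        · subst hli
          exact hx.2 (mem_box.mpr fun k => by
            have := mem_box.mp hl k; simp only [Pi.sub_apply] at this; constructor <;> linarith)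
        · have := corner_gap hli; linarith
    refine ⟨hnull, ?_⟩
    have sub := box_ae_subset (side_pos j) hnull
    rcases lt_trichotomy j i with h | h | h
    · exact h
    · subst h
      refine absurd ?_ hnot
      have : a - eVec j = b := by
        funext k; have := sub k; simp only [Pi.sub_apply]; linarith
      rwa [this]
    · exfalso
      have := sub i
      have : side i < side j := by
        have hdp : (0 : ℝ) < 8 * d * 2 ^ d := by
          have : (0 : ℝ) < d := by exact_mod_cast i.pos
          positivity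
        exact div_lt_div_of_pos_right (pow_lt_pow_right₀ (by norm_num) h) hdp
      linarith
  have uniq : Set.InjOn (fun q : Fin d × Rd d => q.1) Bad := by
    rintro ⟨j, b⟩ hq ⟨j', b'⟩ hq' (rfl : j = j')
    have hb : b = b' := by
      refine separated hd hB hq.1 hq'.1 fun k => ?_
      have s1 := box_ae_subset (side_pos j) (inside _ hq).1 k
      have s2 := box_ae_subset (side_pos j) (inside _ hq').1 k
      dsimp only at s1 s2
      have := side_le i
      have := side_pos j
      have : 1 / (8 * (d : ℝ)) ≤ 1 / 4 := by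
        have : (2 : ℝ) ≤ d := by exact_mod_cast hd
        rw [div_le_div_iff₀ (by positivity) (by norm_num)]; linarith
      rw [abs_le]; constructor <;> linarith
    rw [hb]
  have cov : volume (H \ ⋃ q ∈ Bad, Hb q.1 q.2) = 0 := by
    have hcount : ({q : Fin d × Rd d | q.2 ∈ B}).Countable := by
      refine Set.Countable.mono ?_
        ((Set.to_countable (Set.univ : Set (Fin d))).prod (countable_centres hd hB))
      intro q hq
      exact ⟨Set.mem_univ _, hq⟩
    have small : volume (⋃ q ∈ {q : Fin d × Rd d | q.2 ∈ B ∧ q ∉ Bad}, Hb q.1 q.2 ∩ H) = 0 := by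
      refine (measure_biUnion_null_iff (hcount.mono fun q hq => hq.1)).mpr fun q hq => ?_
      by_contra hne
      exact hq.2 ⟨hq.1, hne⟩
    have others : volume (⋃ b ∈ B, {x : Rd d | x - b ∈ bodySet d} ∩ H) = 0 := by
      refine (measure_biUnion_null_iff (countable_centres hd hB)).mpr fun b hb => ?_
      by_contra hne
      obtain ⟨x, hxb, hxa⟩ := nonempty_of_measure_ne_zero hne
      have hxa' : x - a ∈ holeSet i := mem_box.mpr fun k => by
        have := mem_box.mp hxa k; simp only [Pi.sub_apply]; constructor <;> linarith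
      have : a = b := separated hd hB ha hb fun k => by
        have := hole_bounds hxa' k
        have := mem_box.mp hxb.1 k
        simp only [Pi.sub_apply] at *
        rw [abs_le]; constructor <;> linarith
      subst this
      exact hxb.2 (Set.mem_iUnion.mpr ⟨i, hxa'⟩)
    refine measure_mono_null ?_
      (measure_union_null hB.1 (measure_union_null small others))
    intro x hx
    by_cases hc : ∀ b ∈ B, x - b ∉ keyCube d
    · exact Or.inl hc
    push Not at hc
    obtain ⟨b, hb, hxb⟩ := hc
    rcases hxb with hxb | hxb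
    · exact Or.inr (Or.inr (Set.mem_biUnion hb ⟨hxb, hx.1⟩))
    · obtain ⟨j, hj⟩ := Set.mem_iUnion.mp hxb
      have hm : x ∈ Hb j b := mem_box.mpr fun k => by
        have := mem_box.mp hj k; simp only [Pi.sub_apply] at this; constructor <;> linarith
      by_cases hbad : (j, b) ∈ Bad
      · exact absurd (Set.mem_biUnion hbad hm) hx.2
      · exact Or.inr (Or.inl (Set.mem_biUnion (x := (j, b)) ⟨hb, hbad⟩ ⟨hm, hx.1⟩))
  have fin : Bad.Finite := Set.Finite.of_finite_image (Set.toFinite _) uniq
  have h1 : volume H ≤ ∑ q ∈ fin.toFinset, volume (Hb q.1 q.2) := by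
    calc volume H ≤ volume (⋃ q ∈ fin.toFinset, Hb q.1 q.2) := by
          refine measure_mono_ae (ae_le_set.mpr ?_)
          simpa using cov
      _ ≤ _ := measure_biUnion_finset_le _ _
  have h2 : ∑ q ∈ fin.toFinset, volume (Hb q.1 q.2)
      ≤ ∑ j ∈ Finset.Iio i, ENNReal.ofReal (side j ^ d) := by
    have e : ∀ q ∈ fin.toFinset, volume (Hb q.1 q.2) = ENNReal.ofReal (side q.1 ^ d) :=
      fun q _ => box_vol _ (side_pos _).le
    rw [Finset.sum_congr rfl e,
      ← Finset.sum_image (s := fin.toFinset) (g := fun q => q.1)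
        (f := fun j => ENNReal.ofReal (side j ^ d))
        (fun a ha b hb e => uniq (by simpa using ha) (by simpa using hb) e)]
    refine Finset.sum_le_sum_of_subset fun j hj => ?_
    obtain ⟨q, hq, rfl⟩ := Finset.mem_image.mp hj
    exact Finset.mem_Iio.mpr (inside q (fin.mem_toFinset.mp hq)).2
  have h3 : (∑ j ∈ Finset.Iio i, ENNReal.ofReal (side j ^ d)) < volume H := by
    rw [box_vol _ (side_pos i).le,
      ← ENNReal.ofReal_sum_of_nonneg (fun j _ => pow_nonneg (side_pos j).le _),
      ENNReal.ofReal_lt_ofReal_iff (pow_pos (side_pos i) _)]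
    have hdp : (0 : ℝ) < (8 * d * 2 ^ d : ℝ) ^ d := by
      have : (0 : ℝ) < d := by exact_mod_cast i.pos
      positivity
    simp only [side, div_pow]
    rw [← Finset.sum_div, div_lt_div_iff_of_pos_right hdp]
    have e : ∑ j ∈ Finset.Iio i, ((2 : ℝ) ^ (j : ℕ)) ^ d
        = ∑ j ∈ Finset.range i.val, ((2 : ℝ) ^ d) ^ j := by
      refine Finset.sum_bij (fun j _ => j.val) (fun j hj => ?_) (fun a _ b _ e => Fin.ext e)
        (fun j hj => ⟨⟨j, (Finset.mem_range.mp hj).trans i.isLt⟩, ?_, rfl⟩)
        (fun j _ => pow_right_comm _ _ _)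
      · simpa using hj
      · exact Finset.mem_Iio.mpr (Fin.lt_def.mpr (Finset.mem_range.mp hj))
    rw [e, pow_right_comm]
    have hq : (2 : ℝ) ≤ 2 ^ d := le_self_pow₀ (by norm_num) (by omega)
    have hgeo : ∀ n : ℕ, ∑ j ∈ Finset.range n, ((2 : ℝ) ^ d) ^ j < ((2 : ℝ) ^ d) ^ n := by
      intro n
      induction n with
      | zero => simp
      | succ n ih =>
        rw [Finset.sum_range_succ, pow_succ]
        have : (0 : ℝ) < ((2 : ℝ) ^ d) ^ n := by positivity
        nlinarith
    exact hgeo i.val
  exact absurd (h1.trans h2) (not_le.mpr h3)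

lemma step_back_nat {a : Rd d} (ha : a ∈ B) (m : Fin d → ℕ) :
    a - intVec (fun k => (m k : ℤ)) ∈ B := by
  classical
  have one : ∀ (i : Fin d) (n : ℕ) (a : Rd d), a ∈ B → a - intVec (Pi.single i (n : ℤ)) ∈ B := by
    intro i n
    induction n with
    | zero =>
      intro a ha
      convert ha using 1
      funext k; simp [intVec]
    | succ n ih =>
      intro a ha
      have := ih _ (step_back hd hB ha i)
      convert this using 1
      rw [← intVec_single, sub_sub, ← intVec_add, ← Pi.single_add]
      congr 2; push_cast; rw [add_comm]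
  have many : ∀ T : Finset (Fin d), a - intVec (∑ i ∈ T, Pi.single i (m i : ℤ)) ∈ B := by
    intro T
    induction T using Finset.induction with
    | empty =>
      convert ha using 1
      funext k; simp [intVec]
    | @insert i T hi ih =>
      rw [Finset.sum_insert hi, intVec_add, add_comm, ← sub_sub]
      exact one i _ _ ih
  have := many Finset.univ
  rwa [Finset.univ_sum_single] at this

lemma lattice_coset : ∃ c : Rd d, ∀ b ∈ B, ∃ z, b = c + intVec z := by
  rcases B.eq_empty_or_nonempty with h | ⟨c, hc⟩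
  · exact ⟨0, fun b hb => absurd hb (by simp [h])⟩
  refine ⟨c, fun b hb => ?_⟩
  set z : Fin d → ℤ := fun k => ⌊b k - c k + 1 / 2⌋
  refine ⟨z, ?_⟩
  have e := separated hd hB (step_back_nat hd hB hb fun k => (z k).toNat)
    (step_back_nat hd hB hc fun k => (-(z k)).toNat) (fun k => by
      have a := Int.floor_le (b k - c k + 1 / 2)
      have b' := Int.lt_floor_add_one (b k - c k + 1 / 2)
      have e : (((z k).toNat : ℤ) : ℝ) - (((-(z k)).toNat : ℤ) : ℝ) = (z k : ℝ) := by
        rw [← Int.cast_sub, Int.toNat_sub_toNat_neg]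
      simp only [intVec, Pi.sub_apply]
      simp only [z] at e ⊢
      rw [abs_le]; constructor <;> linarith)
  funext k
  have ek := congrFun e k
  have e' : (((z k).toNat : ℤ) : ℝ) - (((-(z k)).toNat : ℤ) : ℝ) = (z k : ℝ) := by
    rw [← Int.cast_sub, Int.toNat_sub_toNat_neg]
  simp only [intVec, Pi.sub_apply, Pi.add_apply] at ek ⊢
  linarith

end Rigid

theorem euclid_bad (hd : 2 ≤ d) (h : OneBad (Fin d → ℤ)) :
    ∃ Ω : Set (Rd d), MeasurableSet Ω ∧ Bornology.IsBounded Ω ∧ 0 < volume Ω ∧
      (∃ A, RTiles A Ω) ∧ ∀ A, RTiles A Ω →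
        ¬ ∃ v : Fin d → Rd d, LinearIndependent ℝ v ∧ ∀ i x, x + v i ∈ A ↔ x ∈ A := by
  classical
  obtain ⟨F, ⟨f0, hf0⟩, ⟨A0, hA0⟩, hno⟩ := h
  set Ω : Set (Rd d) := ⋃ f ∈ F, {x | x - intVec f ∈ keyCube d}
  have meas : ∀ c : Rd d, MeasurableSet {x : Rd d | x - c ∈ keyCube d} := fun c =>
    (measurable_id.sub_const c) keyCube_measurable
  have pos : ∀ c : Rd d, volume {x : Rd d | x - c ∈ keyCube d} ≠ 0 := by
    intro c
    have : {x : Rd d | x - c ∈ keyCube d} = (fun x => x + -c) ⁻¹' keyCube d := by
      ext x; simp [sub_eq_add_neg]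
    rw [this, measure_preimage_add_right]
    exact keyCube_pos (by omega)
  have sep : ∀ (c : Rd d) (z z' : Fin d → ℤ) (x : Rd d),
      x - c - intVec z ∈ keyCube d → x - c - intVec z' ∈ keyCube d → z = z' :=
    fun c z z' x h1 h2 => (keyCube_fundamental (x - c)).unique h1 h2
  refine ⟨Ω, MeasurableSet.biUnion F.countable_toSet fun f _ => meas _, ?_, ?_,
    ⟨intVec '' A0, ?_, ?_⟩, ?_⟩
  · refine (Bornology.isBounded_biUnion_finset F).mpr fun f _ => ?_
    have : {x : Rd d | x - intVec f ∈ keyCube d} ⊆ {intVec f} + keyCube d := fun x hx =>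
      Set.mem_add.mpr ⟨intVec f, rfl, x - intVec f, hx, by simp⟩
    exact (Bornology.isBounded_singleton.add keyCube_bounded).subset this
  · refine lt_of_lt_of_le (pos_iff_ne_zero.mpr (pos (intVec f0))) (measure_mono ?_)
    exact Set.subset_biUnion_of_mem (u := fun f => {x : Rd d | x - intVec f ∈ keyCube d}) hf0
  · convert measure_empty (μ := (volume : Measure (Rd d)))
    refine Set.eq_empty_iff_forall_notMem.mpr fun x hx => ?_
    obtain ⟨g, hg, -⟩ := keyCube_fundamental x
    obtain ⟨⟨a, f⟩, ⟨ha, hf, e⟩, -⟩ := hA0 g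
    refine hx _ ⟨a, ha, rfl⟩ (Set.mem_biUnion (Finset.mem_coe.mpr hf) ?_)
    show x - intVec a - intVec f ∈ keyCube d
    dsimp only at e
    rwa [sub_sub, ← intVec_add, e]
  · rintro _ ⟨a, ha, rfl⟩ _ ⟨b, hb, rfl⟩ hne
    convert measure_empty (μ := (volume : Measure (Rd d)))
    refine Set.eq_empty_iff_forall_notMem.mpr fun x hx => ?_
    obtain ⟨h1, h2⟩ := hx
    simp only [Ω, Set.mem_iUnion₂, Set.mem_ofPred_eq] at h1 h2
    obtain ⟨f, hf, h1⟩ := h1
    obtain ⟨f', hf', h2⟩ := h2
    rw [sub_sub, ← intVec_add] at h1 h2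
    obtain ⟨g, -, hg⟩ := keyCube_fundamental x
    obtain ⟨p, -, hp⟩ := hA0 g
    have e1 := hp (a, f) ⟨ha, hf, hg _ h1⟩
    have e2 := hp (b, f') ⟨hb, hf', hg _ h2⟩
    exact hne (congrArg intVec (congrArg Prod.fst (e1.trans e2.symm)))
  rintro A hA ⟨v, hv, hper⟩
  set B : Set (Rd d) := {b | ∃ a ∈ A, ∃ f ∈ F, b = a + intVec f}
  have sub : ∀ a, ∀ f ∈ F, ∀ x, x - (a + intVec f) ∈ keyCube d → x - a ∈ Ω := by
    intro a f hf x hx
    refine Set.mem_biUnion (Finset.mem_coe.mpr hf) ?_
    show x - a - intVec f ∈ keyCube d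
    rwa [sub_sub]
  have hB : RTiles B (keyCube d) := by
    refine ⟨measure_mono_null ?_ hA.1, ?_⟩
    · intro x hx a ha hxa
      simp only [Ω, Set.mem_iUnion₂, Set.mem_ofPred_eq] at hxa
      obtain ⟨f, hf, hx'⟩ := hxa
      exact hx _ ⟨a, ha, f, hf, rfl⟩ (by rwa [← sub_sub])
    · rintro _ ⟨a, ha, f, hf, rfl⟩ _ ⟨b, hb, f', hf', rfl⟩ hne
      by_cases hab : a = b
      · subst hab
        convert measure_empty (μ := (volume : Measure (Rd d)))
        refine Set.eq_empty_iff_forall_notMem.mpr fun x hx => hne ?_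
        rw [sep a f f' x (by rw [sub_sub]; exact hx.1) (by rw [sub_sub]; exact hx.2)]
      · refine measure_mono_null ?_ (hA.2 a ha b hb hab)
        intro x hx
        exact ⟨sub a f hf x hx.1, sub b f' hf' x hx.2⟩
  obtain ⟨c, hc⟩ := lattice_coset hd hB
  have coset : ∀ a ∈ A, ∃ z, a = c + intVec z := by
    intro a ha
    obtain ⟨z, hz⟩ := hc _ ⟨a, ha, f0, hf0, rfl⟩
    refine ⟨z - f0, ?_⟩
    funext k
    have := congrFun hz k
    simp [intVec] at this ⊢
    linarith
  set A' : Set (Fin d → ℤ) := {z | c + intVec z ∈ A}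
  have tiles : Tiles A' F := by
    intro g
    have hg : c + intVec g ∈ B := by
      by_contra hn
      refine pos (c + intVec g) (measure_mono_null ?_ hB.1)
      intro x hx b hb hxb
      obtain ⟨z, rfl⟩ := hc b hb
      simp only [Set.mem_ofPred_eq, ← sub_sub] at hx hxb
      exact hn (sep c z g x hxb hx ▸ hb)
    obtain ⟨a, ha, f, hf, e⟩ := hg
    obtain ⟨z, rfl⟩ := coset a ha
    have ez : z + f = g := intVec_inj (by
      rw [intVec_add]
      exact (add_left_cancel (e.trans (add_assoc _ _ _))).symm)
    refine ⟨(z, f), ⟨ha, hf, ez⟩, ?_⟩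
    rintro ⟨z', f'⟩ ⟨hz', hf', e'⟩
    dsimp only at hz' hf' e'
    by_contra hne
    have hz : c + intVec z' ≠ c + intVec z := by
      intro h
      have h' := intVec_inj (add_left_cancel h)
      subst h'
      exact hne (by rw [add_left_cancel (e'.trans ez.symm)])
    refine pos (c + intVec g) (measure_mono_null ?_ (hA.2 _ hz' _ ha hz))
    intro x hx
    refine ⟨sub _ f' hf' x ?_, sub _ f hf x ?_⟩
    · rw [add_assoc, ← intVec_add, e']; exact hx
    · rw [add_assoc, ← intVec_add, ez]; exact hx
  have ne : A'.Nonempty := by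
    obtain ⟨p, ⟨hp, -⟩, -⟩ := tiles 0
    exact ⟨p.1, hp⟩
  obtain ⟨z0, hz0⟩ := ne
  have vint : ∀ i, ∃ w : Fin d → ℤ, v i = intVec w := by
    intro i
    obtain ⟨z, hz⟩ := coset _ ((hper i _).mpr hz0)
    refine ⟨z - z0, ?_⟩
    funext k
    have := congrFun hz k
    simp [intVec] at this ⊢
    linarith
  choose w hw using vint
  set M : Matrix (Fin d) (Fin d) ℤ := Matrix.of w
  have hdet : M.det ≠ 0 := by
    intro h0
    have : (M.map (Int.cast : ℤ → ℝ)).det = 0 := by
      rw [← Int.cast_det, h0, Int.cast_zero]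
    have hrow : LinearIndependent ℝ (M.map (Int.cast : ℤ → ℝ)).row := by
      have : (M.map (Int.cast : ℤ → ℝ)).row = v := by
        funext i; rw [hw i]; funext k; rfl
      rw [this]; exact hv
    have := (Matrix.isUnit_iff_isUnit_det _).mp (Matrix.linearIndependent_rows_iff_isUnit.mp hrow)
    simp_all
  -- multiples of the determinant are periods
  let S : AddSubgroup (Fin d → ℤ) :=
    { carrier := {p | ∀ z, z + p ∈ A' ↔ z ∈ A'}
      zero_mem' := by simp
      add_mem' := fun {p q} hp hq z => by rw [← add_assoc, hq, hp]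
      neg_mem' := fun {p} hp z => by
        have := hp (z + -p)
        rwa [neg_add_cancel_right, iff_comm] at this }
  have gen : ∀ i, w i ∈ S := by
    intro i z
    show c + intVec (z + w i) ∈ A ↔ c + intVec z ∈ A
    rw [intVec_add, ← hw i, ← add_assoc]
    exact hper i _
  have detmem : ∀ z : Fin d → ℤ, M.det • z ∈ S := by
    intro z
    have e : M.det • z = Matrix.vecMul (Matrix.vecMul z M.adjugate) M := by
      rw [Matrix.vecMul_vecMul, Matrix.adjugate_mul, Matrix.vecMul_smul, Matrix.vecMul_one]
    rw [e]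
    have : Matrix.vecMul (Matrix.vecMul z M.adjugate) M
        = ∑ i, (Matrix.vecMul z M.adjugate i) • w i := by
      funext k
      simp [Matrix.vecMul, dotProduct, M]
    rw [this]
    exact S.sum_mem fun i _ => S.zsmul_mem (gen i) _
  refine hno A' tiles M.det.natAbs (Int.natAbs_pos.mpr hdet) fun x z => ?_
  have e : (M.det.natAbs : ℕ) • z = M.det • (M.det.sign • z) := by
    rw [smul_smul, Int.mul_sign_self, natCast_zsmul]
  rw [e]
  exact detmem _ x

end Vale.Agent.P043
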